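import Mathlib

/-! P361, LRO: the Harnack step of block (8).  `F = 1/M` is analytic in the strip `|Im z| < π/2`
with `Re F ≥ cos (Im z)`; then `f = F - 1` satisfies `f y ≤ 2 f x + (9/2) (y-x)^2`. -/

namespace Vale.Agent.P361.LRO

open Complex Metric Set

theorem norm_sub_le_norm_add {w g : ℂ} (hw : 0 ≤ w.re) (hg : 0 ≤ g.re) (hgi : g.im = 0) :
    ‖w - g‖ ≤ ‖w + g‖ := by
  rw [Complex.norm_def, Complex.norm_def]
  apply Real.sqrt_le_sqrt
  simp only [Complex.normSq_apply, Complex.sub_re, Complex.sub_im, Complex.add_re,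
    Complex.add_im, hgi]
  nlinarith [mul_nonneg hw hg]

/-- Harnack inequality with radius three times the distance, at real values. -/
theorem harnack_ball (G : ℂ → ℂ) (c z : ℂ) {r : ℝ} (hr : 0 < r)
    (hG : DifferentiableOn ℂ G (ball c r)) (hre : ∀ w ∈ ball c r, 0 ≤ (G w).re)
    (hz : 3 * dist z c ≤ r) (hc : (G c).im = 0) (hzi : (G z).im = 0) :
    (G z).re ≤ 2 * (G c).re := by
  have hzb : z ∈ ball c r := by
    rw [mem_ball]
    have := dist_nonneg (x := z) (y := c)
    rcases this.eq_or_lt with h | h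
    · rw [← h]; exact hr
    · linarith
  have hcb : c ∈ ball c r := mem_ball_self hr
  refine le_of_forall_pos_le_add fun δ hδ => ?_
  set g : ℂ := (((G c).re + δ : ℝ) : ℂ) with hg
  have hgpos : 0 < (G c).re + δ := by have := hre c hcb; linarith
  have hden : ∀ w ∈ ball c r, (G w + (δ : ℂ)) + g ≠ 0 := by
    intro w hw h0
    have := congrArg Complex.re h0
    simp only [hg, Complex.add_re, Complex.ofReal_re, Complex.zero_re] at this
    have h1 := hre w hw
    linarith
  have hGc : G c + (δ : ℂ) = g := by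
    apply Complex.ext
    · simp [hg]
    · simp [hg, hc]
  let φ : ℂ → ℂ := fun w => ((G w + (δ : ℂ)) - g) / ((G w + (δ : ℂ)) + g)
  have hφd : DifferentiableOn ℂ φ (ball c r) := by
    refine DifferentiableOn.div ?_ ?_ hden
    · exact (hG.add_const _).sub_const _
    · exact (hG.add_const _).add_const _
  have hφc : φ c = 0 := by simp [φ, hGc]
  have hmaps : MapsTo φ (ball c r) (closedBall (φ c) 1) := by
    intro w hw
    rw [hφc, mem_closedBall, dist_zero_right, norm_div]
    refine div_le_one_of_le₀ ?_ (norm_nonneg _)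
    refine norm_sub_le_norm_add ?_ ?_ ?_
    · have := hre w hw
      simp only [Complex.add_re, Complex.ofReal_re]; linarith
    · simp only [hg, Complex.ofReal_re]; linarith
    · simp [hg]
  have hs := dist_le_div_mul_dist_of_mapsTo_ball hφd hmaps hzb
  rw [hφc, dist_zero_right, norm_div] at hs
  have h13 : 1 / r * dist z c ≤ 1 / 3 := by
    rw [one_div_mul_eq_div, div_le_div_iff₀ hr (by norm_num)]
    linarith
  have hs' := hs.trans h13
  have hnp : 0 < ‖(G z + (δ : ℂ)) + g‖ := norm_pos_iff.mpr (hden z hzb)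
  rw [div_le_iff₀ hnp] at hs'
  have e1 : (G z + (δ : ℂ)) - g = (((G z).re + δ - ((G c).re + δ) : ℝ) : ℂ) := by
    apply Complex.ext <;> simp [hg, hzi]
  have e2 : (G z + (δ : ℂ)) + g = (((G z).re + δ + ((G c).re + δ) : ℝ) : ℂ) := by
    apply Complex.ext <;> simp [hg, hzi]
  rw [e1, e2, Complex.norm_real, Complex.norm_real, Real.norm_eq_abs, Real.norm_eq_abs,
    abs_of_pos (by have := hre z hzb; linarith : 0 < (G z).re + δ + ((G c).re + δ))] at hs'
  have := (le_abs_self _).trans hs'
  linarith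

/-- The Harnack step: `f = F - 1` with `Re F ≥ cos (Im z)` in the strip `|Im z| < π/2`. -/
theorem harnack_strip (F : ℂ → ℂ)
    (hF : DifferentiableOn ℂ F {z | |z.im| < Real.pi / 2})
    (hre : ∀ z : ℂ, |z.im| < Real.pi / 2 → Real.cos z.im ≤ (F z).re)
    (x y : ℝ) (hx : (F x).im = 0) (hy : (F y).im = 0) (hd : 3 * |y - x| < Real.pi / 2) :
    (F y).re - 1 ≤ 2 * ((F x).re - 1) + (9 / 2) * (y - x) ^ 2 := by
  have hx1 : 1 ≤ (F x).re := by
    have := hre x (by simp [Real.pi_pos])
    simpa using this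
  rcases eq_or_ne x y with rfl | hne
  · simp; linarith
  set d := |y - x| with hdd
  have hdpos : 0 < d := abs_pos.mpr (sub_ne_zero.mpr hne.symm)
  have him : ∀ w ∈ ball (x : ℂ) (3 * d), |w.im| < 3 * d := by
    intro w hw
    rw [mem_ball, Complex.dist_eq] at hw
    have h1 := Complex.abs_im_le_norm (w - x)
    simp only [Complex.sub_im, Complex.ofReal_im, sub_zero] at h1
    linarith
  have h := harnack_ball (fun w => F w + (((3 * d) ^ 2 / 2 - 1 : ℝ) : ℂ)) x y (r := 3 * d)
    (by positivity) ?_ ?_ ?_ ?_ ?_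
  · simp only [Complex.add_re, Complex.ofReal_re] at h
    have hd2 : d ^ 2 = (y - x) ^ 2 := by rw [hdd, sq_abs]
    nlinarith [h, hd2]
  · refine (hF.mono ?_).add_const _
    intro w hw
    exact (him w hw).trans hd
  · intro w hw
    have h1 := him w hw
    have h2 := hre w (h1.trans hd)
    have h3 := Real.one_sub_sq_div_two_le_cos (x := w.im)
    have h4 : w.im ^ 2 ≤ (3 * d) ^ 2 := by
      rw [← sq_abs w.im]
      exact pow_le_pow_left₀ (abs_nonneg _) h1.le 2
    simp only [Complex.add_re, Complex.ofReal_re]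
    linarith
  · rw [Complex.dist_eq, ← Complex.ofReal_sub, Complex.norm_real, Real.norm_eq_abs]
  · rw [Complex.add_im, Complex.ofReal_im, hx, add_zero]
  · rw [Complex.add_im, Complex.ofReal_im, hy, add_zero]

end Vale.Agent.P361.LRO
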