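import Vale.Agent.P361.LRO.LY.RegLim
import Vale.Agent.P361.LRO.LYWord
import Vale.Agent.P361.LRO.Top

/-!
P361, block (8): the regularity statements `RegStmt`, `PHarn`.
-/

namespace Vale.Agent.P361.LRO.LY

open Finset Matrix Filter Topology

noncomputable section

section Conn

variable {V : Type} [Fintype V] [DecidableEq V]

theorem swapMat_eq (x y : V) : swapMat x y = swapC x y := by
  ext σ τ
  simp only [swapMat, swapC, Matrix.of_apply]
  have : τ = σ ∘ Equiv.swap x y ↔ σ = τ ∘ Equiv.swap x y := by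
    constructor
    · rintro rfl; funext z; simp
    · rintro rfl; funext z; simp
  simp only [this]

theorem gate_eq (x y : V) (p : ℝ) : gate (1 - p) p x y = gateC x y p := by
  unfold gate gateC
  rw [swapMat_eq]

theorem fieldMat_eq (b : V → ℝ) : fieldMat (fun y => ((b y / 2 : ℝ) : ℂ)) = sliceC b := by
  rw [fieldMat_eq_diagonal, sliceC]
  congr 1
  funext σ
  refine Finset.prod_congr rfl fun y _ => ?_
  generalize σ y = i
  fin_cases i <;> simp [fieldFac]

theorem ins_eq (z : V) : ins z s3 = cM (szM z) := by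
  ext σ τ
  rw [ins_apply]
  simp only [cM, szM, Matrix.map_apply, Matrix.diagonal_apply]
  by_cases h : σ = τ
  · subst h
    rw [if_pos rfl]
    have h1 : ∏ y ∈ Finset.univ.erase z, (1 : Matrix (Fin 2) (Fin 2) ℂ) (σ y) (σ y) = 1 :=
      Finset.prod_eq_one fun y _ => by simp
    rw [h1, mul_one]
    generalize σ z = i
    fin_cases i <;> simp [s3]
  · rw [if_neg h, Complex.ofReal_zero]
    obtain ⟨y, hy⟩ := Function.ne_iff.mp h
    by_cases hyz : y = z
    · subst hyz
      have : s3 (σ y) (τ y) = 0 := by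
        generalize σ y = i at hy
        generalize τ y = j at hy
        fin_cases i <;> fin_cases j <;> simp_all [s3]
      rw [this, zero_mul]
    · have h2 : ∏ y ∈ Finset.univ.erase z, (1 : Matrix (Fin 2) (Fin 2) ℂ) (σ y) (τ y) = 0 :=
        Finset.prod_eq_zero (Finset.mem_erase.mpr ⟨hyz, Finset.mem_univ y⟩)
          (Matrix.one_apply_ne hy)
      rw [h2, mul_zero]

theorem mul_pow_comm' {m : Type} [Fintype m] [DecidableEq m] (A B : Matrix m m ℂ) (n : ℕ) :
    (A * B) ^ (n + 1) = A * (B * A) ^ n * B := by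
  induction n with
  | zero => simp
  | succ n ih =>
    rw [pow_succ, ih, pow_succ]
    simp only [Matrix.mul_assoc]

/-- The two orders of the Trotter step have the same traces. -/
theorem trace_reorder {m : Type} [Fintype m] [DecidableEq m] (A B S : Matrix m m ℂ)
    (h : S * A = A * S) (n : ℕ) :
    ((A * B) ^ n * S).trace = (S * (B * A) ^ n).trace := by
  cases n with
  | zero => simp
  | succ n =>
    rw [mul_pow_comm', mul_pow_comm' B A]
    have e2 : (B * (A * B) ^ n * A : Matrix m m ℂ) = (B * A) ^ (n + 1) := (mul_pow_comm' B A n).symm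
    rw [Matrix.mul_assoc, Matrix.mul_assoc, Matrix.trace_mul_comm]
    have e3 : (B * A) ^ n * (B * S) * A = (B * A) ^ (n + 1) * S := by
      rw [pow_succ]
      simp only [Matrix.mul_assoc]
      rw [h]
    rw [e3, e2, Matrix.trace_mul_comm]

variable (L : List (V × V)) (β : ℝ) (h : V → ℝ) (N : ℕ)

theorem stepC_eq : stepC L β h N = fieldMat (fun y => ((β * h y / N / 2 : ℝ) : ℂ)) *
    gprod L (1 - (1 - Real.exp (-(β / N))) / 2) ((1 - Real.exp (-(β / N))) / 2) := by
  unfold stepC gprod
  rw [fieldMat_eq (fun y => β * h y / N)]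
  congr 2
  refine List.map_congr_left fun e _ => ?_
  rw [gate_eq]

theorem szM_comm (z : V) (b : V → ℝ) : cM (szM z) * sliceC b = sliceC b * cM (szM z) := by
  have h1 : cM (szM z) = Matrix.diagonal fun σ : V → Fin 2 =>
      (((if σ z = 0 then 1 else -1 : ℝ)) : ℂ) := by
    ext σ τ
    simp only [cM, szM, Matrix.map_apply, Matrix.diagonal_apply]
    split_ifs <;> simp
  rw [h1, sliceC, Matrix.diagonal_mul_diagonal, Matrix.diagonal_mul_diagonal]
  congr 1
  funext σ
  ring

theorem trace_W (z : V) : (stepC L β h N ^ N * cM (szM z)).trace =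
    WW L (1 - (1 - Real.exp (-(β / N))) / 2) ((1 - Real.exp (-(β / N))) / 2) N z
      (fun y => ((β * h y / N / 2 : ℝ) : ℂ)) := by
  rw [stepC_eq, trace_reorder, WW, ins_eq]
  · rfl
  · rw [fieldMat_eq (fun y => β * h y / N), szM_comm]

theorem trace_Z : (stepC L β h N ^ N).trace =
    ZW L (1 - (1 - Real.exp (-(β / N))) / 2) ((1 - Real.exp (-(β / N))) / 2) N
      (fun y => ((β * h y / N / 2 : ℝ) : ℂ)) := by
  have h1 := trace_reorder (fieldMat (fun y => ((β * h y / N / 2 : ℝ) : ℂ)))
    (gprod L (1 - (1 - Real.exp (-(β / N))) / 2) ((1 - Real.exp (-(β / N))) / 2)) 1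
    (by rw [Matrix.one_mul, Matrix.mul_one]) N
  rw [Matrix.mul_one, Matrix.one_mul] at h1
  rw [stepC_eq, h1, ZW]
  rfl

end Conn

/-- Division of two real complex numbers. -/
theorem re_div_of_im {z w : ℂ} (hz : z.im = 0) (hw : w.im = 0) : (z / w).re = z.re / w.re := by
  have e1 : z = ((z.re : ℝ) : ℂ) := by apply Complex.ext <;> simp [hz]
  have e2 : w = ((w.re : ℝ) : ℂ) := by apply Complex.ext <;> simp [hw]
  rw [e1, e2, ← Complex.ofReal_div, Complex.ofReal_re, Complex.ofReal_re, Complex.ofReal_re]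

theorem finReg : FinReg := by
  intro V _ _ L β h h' s N z hβ hh hh' hs hs' hd hN hZ hZ'
  have hN0 : (0 : ℝ) < N := by
    have : 0 < N := by omega
    exact_mod_cast this
  have hp0 : 0 ≤ (1 - Real.exp (-(β / N))) / 2 := by
    have : Real.exp (-(β / N)) ≤ 1 := Real.exp_le_one_iff.mpr (by
      have : 0 ≤ β / N := by positivity
      linarith)
    linarith
  have hp1 : 0 ≤ 1 - (1 - Real.exp (-(β / N))) / 2 := by
    have := Real.exp_pos (-(β / N))
    linarith
  have hab : 0 < 1 - (1 - Real.exp (-(β / N))) / 2 + (1 - Real.exp (-(β / N))) / 2 := by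
    linarith
  set c : V → ℝ := fun y => β * h y / N / 2 with hc
  set c' : V → ℝ := fun y => β * h' y / N / 2 with hc'
  have hcp : ∀ y, 0 < c y := fun y => by
    have := hh y
    rw [hc]; positivity
  have hcp' : ∀ y, 0 < c' y := fun y => by
    have := hh' y
    rw [hc']; positivity
  have hlog : ∀ y, |Real.log (c' y) - Real.log (c y)| ≤ s := fun y => by
    have e1 : c' y = (β / N / 2) * h' y := by rw [hc']; ring
    have e2 : c y = (β / N / 2) * h y := by rw [hc]; ring
    have h0 : β / N / 2 ≠ 0 := by positivity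
    rw [e1, e2, Real.log_mul h0 (hh' y).ne', Real.log_mul h0 (hh y).ne', add_sub_add_left_eq_sub,
      abs_sub_comm]
    exact hd y
  have key := finite_harnack L hp1 hp0 hab hN z hcp hcp' hs' hlog
  have im0 : ∀ y, (((c y : ℝ)) : ℂ).im = 0 := fun y => Complex.ofReal_im _
  have im0' : ∀ y, (((c' y : ℝ)) : ℂ).im = 0 := fun y => Complex.ofReal_im _
  have r1 := re_ZW_div (l := L) hp1 hp0 hab hN z (al := 0) le_rfl (by positivity)
    (s := fun y => ((c y : ℝ) : ℂ)) (fun g hg x => by
      rw [Complex.ofReal_im, Complex.ofReal_re, abs_zero, zero_mul]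
      rw [sub_zero, abs_lt] at hg
      exact mul_pos (hcp x) (Real.cos_pos_of_mem_Ioo ⟨by linarith [hg.1], hg.2⟩))
  have r1' := re_ZW_div (l := L) hp1 hp0 hab hN z (al := 0) le_rfl (by positivity)
    (s := fun y => ((c' y : ℝ) : ℂ)) (fun g hg x => by
      rw [Complex.ofReal_im, Complex.ofReal_re, abs_zero, zero_mul]
      rw [sub_zero, abs_lt] at hg
      exact mul_pos (hcp' x) (Real.cos_pos_of_mem_Ioo ⟨by linarith [hg.1], hg.2⟩))
  rw [Real.cos_zero] at r1 r1'
  have eZ := trace_Z L β h N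
  have eZ' := trace_Z L β h' N
  have eW := trace_W L β h N z
  have eW' := trace_W L β h' N z
  rw [re_div_of_im (ZW_im im0) (WW_im im0)] at r1 key
  rw [re_div_of_im (ZW_im im0') (WW_im im0')] at r1' key
  rw [eW, eW', eZ, eZ']
  rw [eZ] at hZ
  rw [eZ'] at hZ'
  refine ⟨?_, ?_, key⟩
  · by_contra hcon
    rw [not_lt] at hcon
    have : (ZW L (1 - (1 - Real.exp (-(β / N))) / 2) ((1 - Real.exp (-(β / N))) / 2) N
      (fun y => ((c y : ℝ) : ℂ))).re / (WW L (1 - (1 - Real.exp (-(β / N))) / 2)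
        ((1 - Real.exp (-(β / N))) / 2) N z (fun y => ((c y : ℝ) : ℂ))).re ≤ 0 :=
      div_nonpos_of_nonneg_of_nonpos hZ.le hcon
    linarith
  · by_contra hcon
    rw [not_lt] at hcon
    have : (ZW L (1 - (1 - Real.exp (-(β / N))) / 2) ((1 - Real.exp (-(β / N))) / 2) N
      (fun y => ((c' y : ℝ) : ℂ))).re / (WW L (1 - (1 - Real.exp (-(β / N))) / 2)
        ((1 - Real.exp (-(β / N))) / 2) N z (fun y => ((c' y : ℝ) : ℂ))).re ≤ 0 :=
      div_nonpos_of_nonneg_of_nonpos hZ'.le hcon
    linarith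

/-- Block (8). -/
theorem regStmt : RegStmt := regStmt_of finReg

/-- Block (8), the form of `Top.lean`. -/
theorem pHarn : PHarn := fun V _ _ L _ β hβ h h' hh hh' d hd hd' hl z =>
  regStmt V L β h h' d hβ hh hh' hd hd' hl z

end

end Vale.Agent.P361.LRO.LY
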