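import Mathlib

/-!
P361, block (8): the values of the cosine on a strip.
-/

namespace Vale.Agent.P361.LRO.LY

open Complex

theorem cos_re_eq (t : ℂ) : (Complex.cos t).re = Real.cos t.re * Real.cosh t.im := by
  conv_lhs => rw [← Complex.re_add_im t]
  rw [Complex.cos_add_mul_I, ← Complex.ofReal_cos, ← Complex.ofReal_cosh, ← Complex.ofReal_sin,
    ← Complex.ofReal_sinh, Complex.sub_re, ← Complex.ofReal_mul, ← Complex.ofReal_mul,
    Complex.ofReal_re, Complex.re_ofReal_mul, Complex.I_re, mul_zero, sub_zero]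

/-- Every complex number with real part larger than `-cos α` is a value of the cosine in the strip
`|Re t| < π - α`. -/
theorem cos_strip {al : ℝ} (h0 : 0 ≤ al) (h1 : al < Real.pi / 2) {w : ℂ}
    (hw : -Real.cos al < w.re) : ∃ t : ℂ, Complex.cos t = w ∧ |t.re| < Real.pi - al := by
  obtain ⟨t₀, ht₀⟩ := Complex.cos_surjective w
  have hpi := Real.pi_pos
  -- move the real part to `(-π, π]`
  obtain ⟨t, ht, hre⟩ : ∃ t : ℂ, Complex.cos t = w ∧ |t.re| ≤ Real.pi := by
    refine ⟨t₀ - (toIocDiv Real.two_pi_pos (-Real.pi) t₀.re : ℤ) * (2 * Real.pi), ?_, ?_⟩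
    · rw [Complex.cos_sub_int_mul_two_pi, ht₀]
    · have h2 := toIocMod_mem_Ioc Real.two_pi_pos (-Real.pi) t₀.re
      have h3 : (t₀ - (toIocDiv Real.two_pi_pos (-Real.pi) t₀.re : ℤ) * (2 * Real.pi) : ℂ).re =
          toIocMod Real.two_pi_pos (-Real.pi) t₀.re := by
        rw [toIocMod]
        simp
      rw [h3, abs_le]
      constructor
      · exact h2.1.le
      · have := h2.2
        linarith
  refine ⟨t, ht, ?_⟩
  by_contra hlt
  rw [not_lt] at hlt
  have h4 : (Complex.cos t).re = Real.cos t.re * Real.cosh t.im := cos_re_eq t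
  rw [ht] at h4
  have h5 : Real.cos t.re ≤ -Real.cos al := by
    rw [← Real.cos_abs t.re, ← Real.cos_pi_sub]
    exact Real.cos_le_cos_of_nonneg_of_le_pi (by linarith) hre hlt
  have h6 : 0 < Real.cos al := Real.cos_pos_of_mem_Ioo ⟨by linarith, h1⟩
  have h7 : 1 ≤ Real.cosh t.im := Real.one_le_cosh _
  have h8 : w.re ≤ -Real.cos al := by
    rw [h4]
    nlinarith
  linarith

end Vale.Agent.P361.LRO.LY
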