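import Mathlib

/-! P361, LRO, block (8), file 1: hemispheres as cones in `ℂ²`; gate lemma, field lemma,
pairing lemma, trace lemma. -/

namespace Vale.Agent.P361.LRO.LY

open Matrix

/-- The Hermitian form of the hemisphere centred at angle `g` from the north pole. -/
noncomputable def q (g : ℝ) (v : Fin 2 → ℂ) : ℝ :=
  Real.cos g * (‖v 0‖ ^ 2 - ‖v 1‖ ^ 2)
    + 2 * Real.sin g * ((v 0).re * (v 1).re + (v 0).im * (v 1).im)

/-- The orthogonal rotation `J v = (v 1, - v 0)`. -/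
def J (v : Fin 2 → ℂ) : Fin 2 → ℂ := ![v 1, - v 0]

theorem q_def' (g : ℝ) (v : Fin 2 → ℂ) : q g v =
    Real.cos g * (((v 0).re ^ 2 + (v 0).im ^ 2) - ((v 1).re ^ 2 + (v 1).im ^ 2))
    + 2 * Real.sin g * ((v 0).re * (v 1).re + (v 0).im * (v 1).im) := by
  have h : ∀ z : ℂ, ‖z‖ ^ 2 = z.re ^ 2 + z.im ^ 2 := by
    intro z
    rw [← Complex.normSq_eq_norm_sq, Complex.normSq_apply]; ring
  rw [q, h, h]

theorem q_smul (g : ℝ) (c : ℂ) (v : Fin 2 → ℂ) : q g (c • v) = ‖c‖ ^ 2 * q g v := by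
  have h : ‖c‖ ^ 2 = c.re ^ 2 + c.im ^ 2 := by
    rw [← Complex.normSq_eq_norm_sq, Complex.normSq_apply]; ring
  rw [q_def', q_def', h]
  simp only [Pi.smul_apply, smul_eq_mul, Complex.mul_re, Complex.mul_im]
  ring

theorem q_J (g : ℝ) (v : Fin 2 → ℂ) : q g (J v) = - q g v := by
  rw [q_def', q_def']
  simp [J]
  ring

theorem q_convex (g : ℝ) (s : ℝ) (v w : Fin 2 → ℂ) :
    q g ((s : ℂ) • v + ((1 - s : ℝ) : ℂ) • w)
      = s * q g v + (1 - s) * q g w - s * (1 - s) * q g (v - w) := by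
  rw [q_def', q_def', q_def', q_def']
  simp only [Pi.smul_apply, Pi.add_apply, Pi.sub_apply, smul_eq_mul, Complex.mul_re,
    Complex.mul_im, Complex.add_re, Complex.add_im, Complex.sub_re, Complex.sub_im,
    Complex.ofReal_re, Complex.ofReal_im]
  ring

/-- Gate lemma: averaging with the transposed form preserves nonvanishing. -/
theorem gate_two (g : ℝ) (ψ : (Fin 2 → ℂ) → (Fin 2 → ℂ) → ℂ)
    (hl : ∀ w, IsLinearMap ℂ (fun v => ψ v w)) (hr : ∀ v, IsLinearMap ℂ (fun w => ψ v w))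
    (hψ : ∀ v w, 0 < q g v → 0 < q g w → ψ v w ≠ 0)
    {p : ℝ} (h0 : 0 ≤ p) (h1 : p ≤ 1) (v w : Fin 2 → ℂ) (hv : 0 < q g v) (hw : 0 < q g w) :
    ((1 - p : ℝ) : ℂ) * ψ v w + (p : ℂ) * ψ w v ≠ 0 := by
  intro h
  have hD1 : ψ v v ≠ 0 := hψ v v hv hv
  have hD2 : ψ w v ≠ 0 := hψ w v hw hv
  set a : ℂ := (ψ v v)⁻¹ with ha
  set b : ℂ := (ψ w v)⁻¹ with hb
  have ha0 : a ≠ 0 := inv_ne_zero hD1
  have hb0 : b ≠ 0 := inv_ne_zero hD2
  -- difference lies in the kernel of `D`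
  have hker : ψ (a • v - b • w) v = 0 := by
    have h2 := (hl v).map_sub (a • v) (b • w)
    rw [h2]
    have h3 := (hl v).map_smul a v
    have h4 := (hl v).map_smul b w
    rw [h3, h4, ha, hb, smul_eq_mul, smul_eq_mul, inv_mul_cancel₀ hD1, inv_mul_cancel₀ hD2,
      sub_self]
  have hle : q g (a • v - b • w) ≤ 0 := by
    by_contra hcon
    exact hψ _ v (not_le.mp hcon) hv hker
  have hpos : 0 < q g ((p : ℂ) • (a • v) + ((1 - p : ℝ) : ℂ) • (b • w)) := by
    rw [q_convex, q_smul, q_smul]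
    have e1 : 0 < ‖a‖ ^ 2 * q g v := by
      have := norm_pos_iff.mpr ha0; positivity
    have e2 : 0 < ‖b‖ ^ 2 * q g w := by
      have := norm_pos_iff.mpr hb0; positivity
    have e3 : 0 ≤ p * (1 - p) := mul_nonneg h0 (by linarith)
    have e4 : p * (1 - p) * q g (a • v - b • w) ≤ 0 :=
      mul_nonpos_of_nonneg_of_nonpos e3 hle
    rcases h0.eq_or_lt with hp | hp
    · rw [← hp] at e4 ⊢
      linarith
    · have := mul_pos hp e1
      have := mul_nonneg (by linarith : (0 : ℝ) ≤ 1 - p) e2.le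
      linarith
  refine hψ v _ hv hpos ?_
  have h5 := (hr v).map_add ((p : ℂ) • (a • v)) (((1 - p : ℝ) : ℂ) • (b • w))
  have h6 := (hr v).map_smul (p : ℂ) (a • v)
  have h7 := (hr v).map_smul a v
  have h8 := (hr v).map_smul ((1 - p : ℝ) : ℂ) (b • w)
  have h9 := (hr v).map_smul b w
  rw [h5, h6, h7, h8, h9]
  simp only [smul_eq_mul]
  have h10 : a * ψ v v = 1 := inv_mul_cancel₀ hD1
  have h11 : b * ψ w v = 1 := inv_mul_cancel₀ hD2
  linear_combination b * h + (p : ℂ) * h10 - (p : ℂ) * h11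

/-- The field slice `diag(e^{b/2}, e^{-b/2})`. -/
noncomputable def fld (b : ℂ) (v : Fin 2 → ℂ) : Fin 2 → ℂ :=
  ![Complex.exp (b / 2) * v 0, Complex.exp (-(b / 2)) * v 1]

theorem fld_q (g : ℝ) (b : ℂ) (v : Fin 2 → ℂ) : q g (fld b v) =
    Real.cos g * (Real.exp b.re * ‖v 0‖ ^ 2 - Real.exp (-b.re) * ‖v 1‖ ^ 2)
    + 2 * Real.sin g * ((Real.cos b.im) * ((v 0).re * (v 1).re + (v 0).im * (v 1).im)
      + Real.sin b.im * ((v 0).re * (v 1).im - (v 0).im * (v 1).re)) := by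
  have e1 : ‖Complex.exp (b / 2) * v 0‖ ^ 2 = Real.exp b.re * ‖v 0‖ ^ 2 := by
    rw [norm_mul, mul_pow, Complex.norm_exp, ← Real.exp_nat_mul]
    congr 2
    simp; ring
  have e2 : ‖Complex.exp (-(b / 2)) * v 1‖ ^ 2 = Real.exp (-b.re) * ‖v 1‖ ^ 2 := by
    rw [norm_mul, mul_pow, Complex.norm_exp, ← Real.exp_nat_mul]
    congr 2
    simp; ring
  have e3 : ∀ z w : ℂ, z.re * w.re + z.im * w.im = (starRingEnd ℂ z * w).re := by
    intro z w; simp [Complex.mul_re]
  have e4 : starRingEnd ℂ (Complex.exp (b / 2) * v 0) * (Complex.exp (-(b / 2)) * v 1)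
      = Complex.exp (-(b.im : ℂ) * Complex.I) * (starRingEnd ℂ (v 0) * v 1) := by
    rw [map_mul, ← Complex.exp_conj]
    have : Complex.exp (starRingEnd ℂ (b / 2)) * Complex.exp (-(b / 2))
        = Complex.exp (-(b.im : ℂ) * Complex.I) := by
      rw [← Complex.exp_add]
      congr 1
      have h2 : starRingEnd ℂ (b / 2) = starRingEnd ℂ b / 2 := by
        rw [map_div₀]; congr 1; exact Complex.conj_ofNat 2
      rw [h2]
      apply Complex.ext
      · simp
      · simp; ring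
    rw [← this]; ring
  rw [q]
  have f0 : fld b v 0 = Complex.exp (b / 2) * v 0 := rfl
  have f1 : fld b v 1 = Complex.exp (-(b / 2)) * v 1 := rfl
  rw [f0, f1, e1, e2, e3, e4]
  have e5 : Complex.exp (-(b.im : ℂ) * Complex.I)
      = ((Real.cos b.im : ℝ) : ℂ) - ((Real.sin b.im : ℝ) : ℂ) * Complex.I := by
    rw [Complex.exp_mul_I, Complex.cos_neg, Complex.sin_neg, Complex.ofReal_cos,
      Complex.ofReal_sin]
    ring
  rw [e5]
  simp only [Complex.mul_re, Complex.sub_re, Complex.sub_im, Complex.ofReal_re,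
    Complex.ofReal_im, Complex.mul_im, Complex.I_re, Complex.I_im, Complex.conj_re,
    Complex.conj_im]
  ring

theorem norm_sq_eq (z : ℂ) : ‖z‖ ^ 2 = z.re ^ 2 + z.im ^ 2 := by
  rw [← Complex.normSq_eq_norm_sq, Complex.normSq_apply]; ring

theorem exp_sub_one_gt {r : ℝ} (hr : 0 < r) : r * Real.exp (r / 2) < Real.exp r - 1 := by
  have h1 : r / 2 < Real.sinh (r / 2) := Real.self_lt_sinh_iff.mpr (by linarith)
  rw [Real.sinh_eq] at h1
  have h2 : Real.exp (r / 2) * Real.exp (r / 2) = Real.exp r := by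
    rw [← Real.exp_add]; congr 1; ring
  have h3 : Real.exp (r / 2) * Real.exp (-(r / 2)) = 1 := by
    rw [← Real.exp_add]; simp
  have h4 := Real.exp_pos (r / 2)
  nlinarith

theorem one_sub_exp_gt {r : ℝ} (hr : 0 < r) : r * Real.exp (-(r / 2)) < 1 - Real.exp (-r) := by
  have h1 : r / 2 < Real.sinh (r / 2) := Real.self_lt_sinh_iff.mpr (by linarith)
  rw [Real.sinh_eq] at h1
  have h2 : Real.exp (-(r / 2)) * Real.exp (-(r / 2)) = Real.exp (-r) := by
    rw [← Real.exp_add]; congr 1; ring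
  have h3 : Real.exp (r / 2) * Real.exp (-(r / 2)) = 1 := by
    rw [← Real.exp_add]; simp
  have h4 := Real.exp_pos (-(r / 2))
  nlinarith

/-- Field lemma: the closed cone is mapped into the open cone. -/
theorem fld_pos {g : ℝ} (hg : 0 < Real.cos g) {b : ℂ} (hb : 0 < b.re)
    (hgb : |Real.sin g| * |b.im| ≤ Real.cos g * b.re) {v : Fin 2 → ℂ} (hv0 : v ≠ 0)
    (hv : 0 ≤ q g v) : 0 < q g (fld b v) := by
  rw [fld_q]
  rw [q] at hv
  set A := ‖v 0‖ with hA
  set C := ‖v 1‖ with hC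
  set X := (v 0).re * (v 1).re + (v 0).im * (v 1).im with hX
  set Y := (v 0).re * (v 1).im - (v 0).im * (v 1).re with hY
  have hA0 : 0 ≤ A := norm_nonneg _
  have hC0 : 0 ≤ C := norm_nonneg _
  have hXY : X ^ 2 + Y ^ 2 = (A * C) ^ 2 := by
    rw [mul_pow, hA, hC, norm_sq_eq, norm_sq_eq, hX, hY]; ring
  have hAC : 0 < A ∨ 0 < C := by
    by_contra hcon
    push Not at hcon
    apply hv0
    have h0 : v 0 = 0 := norm_le_zero_iff.mp hcon.1
    have h1 : v 1 = 0 := norm_le_zero_iff.mp hcon.2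
    funext i
    fin_cases i
    · exact h0
    · exact h1
  set θ := b.im with hθ
  set ρ := b.re with hρ
  -- the rotation error
  have hE : |(Real.cos θ - 1) * X + Real.sin θ * Y| ≤ |θ| * (A * C) := by
    apply abs_le_of_sq_le_sq _ (by positivity)
    rw [mul_pow, sq_abs, ← hXY]
    have h1 : (Real.cos θ - 1) ^ 2 + Real.sin θ ^ 2 ≤ θ ^ 2 := by
      have h2 := Real.one_sub_sq_div_two_le_cos (x := θ)
      have h3 := Real.sin_sq_add_cos_sq θ
      nlinarith
    calc ((Real.cos θ - 1) * X + Real.sin θ * Y) ^ 2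
        ≤ ((Real.cos θ - 1) ^ 2 + Real.sin θ ^ 2) * (X ^ 2 + Y ^ 2) := by
          nlinarith [sq_nonneg ((Real.cos θ - 1) * Y - Real.sin θ * X)]
      _ ≤ θ ^ 2 * (X ^ 2 + Y ^ 2) := by
          apply mul_le_mul_of_nonneg_right h1 (by positivity)
  have hE2 : -(|Real.sin g| * |θ| * (A * C))
      ≤ Real.sin g * ((Real.cos θ - 1) * X + Real.sin θ * Y) := by
    have h1 : |Real.sin g * ((Real.cos θ - 1) * X + Real.sin θ * Y)|
        ≤ |Real.sin g| * (|θ| * (A * C)) := by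
      rw [abs_mul]
      exact mul_le_mul_of_nonneg_left hE (abs_nonneg _)
    have := neg_abs_le (Real.sin g * ((Real.cos θ - 1) * X + Real.sin θ * Y))
    linarith
  have hE3 : |Real.sin g| * |θ| * (A * C) ≤ Real.cos g * ρ * (A * C) :=
    mul_le_mul_of_nonneg_right hgb (by positivity)
  -- the radial gain
  have g1 := exp_sub_one_gt hb
  have g2 := one_sub_exp_gt hb
  have hAG : 2 * (A * C) ≤ Real.exp (ρ / 2) * A ^ 2 + Real.exp (-(ρ / 2)) * C ^ 2 := by
    have h1 : Real.exp (ρ / 2) = Real.exp (ρ / 4) ^ 2 := by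
      rw [← Real.exp_nat_mul]; congr 1; push_cast; ring
    have h2 : Real.exp (-(ρ / 2)) = Real.exp (-(ρ / 4)) ^ 2 := by
      rw [← Real.exp_nat_mul]; congr 1; push_cast; ring
    have h3 : Real.exp (ρ / 4) * Real.exp (-(ρ / 4)) = 1 := by
      rw [← Real.exp_add]; simp
    have h4 : A * C = (Real.exp (ρ / 4) * A) * (Real.exp (-(ρ / 4)) * C) := by
      calc A * C = (Real.exp (ρ / 4) * Real.exp (-(ρ / 4))) * (A * C) := by rw [h3, one_mul]
        _ = _ := by ring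
    rw [h1, h2, h4]
    nlinarith [sq_nonneg (Real.exp (ρ / 4) * A - Real.exp (-(ρ / 4)) * C)]
  have hR : 2 * ρ * (A * C)
      < (Real.exp ρ - 1) * A ^ 2 + (1 - Real.exp (-ρ)) * C ^ 2 := by
    have h1 : 2 * ρ * (A * C)
        ≤ ρ * Real.exp (ρ / 2) * A ^ 2 + ρ * Real.exp (-(ρ / 2)) * C ^ 2 := by
      have := mul_le_mul_of_nonneg_left hAG hb.le
      nlinarith
    rcases hAC with h | h
    · have h2 : ρ * Real.exp (ρ / 2) * A ^ 2 < (Real.exp ρ - 1) * A ^ 2 :=
        mul_lt_mul_of_pos_right g1 (by positivity)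
      have h3 : ρ * Real.exp (-(ρ / 2)) * C ^ 2 ≤ (1 - Real.exp (-ρ)) * C ^ 2 :=
        mul_le_mul_of_nonneg_right g2.le (by positivity)
      linarith
    · have h2 : ρ * Real.exp (ρ / 2) * A ^ 2 ≤ (Real.exp ρ - 1) * A ^ 2 :=
        mul_le_mul_of_nonneg_right g1.le (by positivity)
      have h3 : ρ * Real.exp (-(ρ / 2)) * C ^ 2 < (1 - Real.exp (-ρ)) * C ^ 2 :=
        mul_lt_mul_of_pos_right g2 (by positivity)
      linarith
  have hR2 := mul_lt_mul_of_pos_left hR hg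
  nlinarith

/-- The open cone is mapped into itself. -/
theorem q_zero (g : ℝ) : q g 0 = 0 := by simp [q]

theorem ne_zero_of_q_pos {g : ℝ} {v : Fin 2 → ℂ} (hv : 0 < q g v) : v ≠ 0 := by
  rintro rfl
  rw [q_zero] at hv
  exact lt_irrefl _ hv

/-- Orthogonality to `u` means proportional to `J u`. -/
theorem exists_smul_J {v u : Fin 2 → ℂ} (hu : u ≠ 0) (h : v 0 * u 0 + v 1 * u 1 = 0) :
    ∃ c : ℂ, v = c • J u := by
  by_cases h1 : u 1 = 0
  · have h0 : u 0 ≠ 0 := by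
      intro h0
      apply hu
      funext i
      fin_cases i
      · exact h0
      · exact h1
    refine ⟨-(v 1) / u 0, ?_⟩
    have hv0 : v 0 = 0 := by
      rw [h1, mul_zero, add_zero] at h
      exact (mul_eq_zero.mp h).resolve_right h0
    funext i
    fin_cases i
    · simp [J, h1, hv0]
    · simp [J]
      field_simp
  · refine ⟨v 0 / u 1, ?_⟩
    funext i
    fin_cases i
    · simp [J]
      field_simp
    · simp [J]
      field_simp
      linear_combination h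

/-- Pairing lemma. -/
theorem pair_ne_zero {g : ℝ} {v u : Fin 2 → ℂ} (hv : 0 < q g v) (hu0 : u ≠ 0)
    (hu : 0 ≤ q g u) : v 0 * u 0 + v 1 * u 1 ≠ 0 := by
  intro h
  obtain ⟨c, rfl⟩ := exists_smul_J hu0 h
  rw [q_smul, q_J] at hv
  nlinarith [sq_nonneg ‖c‖, mul_nonneg (sq_nonneg ‖c‖) hu]

/-- Converse of the pairing lemma: `w` pairs nontrivially with the whole closed cone. -/
theorem q_pos_of_pair {g : ℝ} {w : Fin 2 → ℂ} (hw : w ≠ 0)
    (h : ∀ v : Fin 2 → ℂ, v ≠ 0 → 0 ≤ q g v → v 0 * w 0 + v 1 * w 1 ≠ 0) : 0 < q g w := by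
  by_contra hcon
  push Not at hcon
  refine h (J w) ?_ ?_ ?_
  · intro h0
    apply hw
    have h1 := congrFun h0 0
    have h2 := congrFun h0 1
    simp [J] at h1 h2
    funext i
    fin_cases i
    · exact h2
    · exact h1
  · rw [q_J]; linarith
  · simp [J]; ring

/-- Trace lemma: a `2 × 2` matrix nonvanishing on closed cone × closed cone has nonzero trace. -/
theorem trace_ne_zero {g : ℝ} (hg : 0 < Real.cos g) (A : Fin 2 → Fin 2 → ℂ)
    (h : ∀ v u : Fin 2 → ℂ, v ≠ 0 → u ≠ 0 → 0 ≤ q g v → 0 ≤ q g u →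
      ∑ i, ∑ j, A i j * (v i * u j) ≠ 0) : ∑ i, A i i ≠ 0 := by
  intro htr
  rw [Fin.sum_univ_two] at htr
  -- mapping property
  have key : ∀ u : Fin 2 → ℂ, u ≠ 0 → 0 ≤ q g u →
      (fun i => A i 0 * u 0 + A i 1 * u 1) ≠ 0 ∧
        0 < q g (fun i => A i 0 * u 0 + A i 1 * u 1) := by
    intro u hu0 hu
    have hp : ∀ v : Fin 2 → ℂ, v ≠ 0 → 0 ≤ q g v →
        v 0 * (A 0 0 * u 0 + A 0 1 * u 1) + v 1 * (A 1 0 * u 0 + A 1 1 * u 1) ≠ 0 := by
      intro v hv0 hv
      have := h v u hv0 hu0 hv hu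
      simp only [Fin.sum_univ_two] at this
      intro h0
      apply this
      rw [← h0]; ring
    have hne : (fun i => A i 0 * u 0 + A i 1 * u 1) ≠ 0 := by
      intro h0
      apply hp u hu0 hu
      have h1 := congrFun h0 0
      have h2 := congrFun h0 1
      simp only [Pi.zero_apply] at h1 h2
      rw [h1, h2]; ring
    exact ⟨hne, q_pos_of_pair hne hp⟩
  -- a boundary vector
  set x : ℝ := (1 + Real.sin g) / Real.cos g with hx
  let u : Fin 2 → ℂ := ![1, (x : ℂ)]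
  have hu0 : u ≠ 0 := by
    intro h0
    have := congrFun h0 0
    simp [u] at this
  have hqu : q g u = 0 := by
    rw [q_def']
    simp only [u, Matrix.cons_val_zero, Matrix.cons_val_one, Complex.one_re, Complex.one_im,
      Complex.ofReal_re, Complex.ofReal_im]
    rw [hx]
    have h1 := Real.sin_sq_add_cos_sq g
    field_simp
    nlinarith
  obtain ⟨hw0, hw⟩ := key u hu0 hqu.ge
  obtain ⟨_, hw'⟩ := key _ hw0 hw.le
  have heq : (fun i => A i 0 * (A 0 0 * u 0 + A 0 1 * u 1)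
        + A i 1 * (A 1 0 * u 0 + A 1 1 * u 1))
      = (-(A 0 0 * A 1 1 - A 0 1 * A 1 0)) • u := by
    funext i
    fin_cases i
    · simp only [Fin.zero_eta, Pi.smul_apply, smul_eq_mul]
      linear_combination (A 0 0 * u 0 + A 0 1 * u 1) * htr
    · simp only [Fin.mk_one, Pi.smul_apply, smul_eq_mul]
      linear_combination (A 1 0 * u 0 + A 1 1 * u 1) * htr
  rw [heq, q_smul, hqu, mul_zero] at hw'
  exact lt_irrefl _ hw'

end Vale.Agent.P361.LRO.LY
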