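import Mathlib

/-! (copy of the P367 file) the bounded Lie-Trotter product formula. -/

namespace Vale.Agent.P361TrotB

open Filter Topology NormedSpace

section powers

variable {𝔸 : Type*} [NormedRing 𝔸]

/-- telescoping estimate for powers -/
theorem norm_pow_sub_pow_le' {a b : 𝔸} {M : ℝ} (hM : 1 ≤ M) (ha : ‖a‖ ≤ M) (hb : ‖b‖ ≤ M) (m : ℕ)
    (h1 : ‖(1 : 𝔸)‖ ≤ 1) : ‖a ^ m - b ^ m‖ ≤ m * M ^ m * ‖a - b‖ := by
  have hpa : ∀ k : ℕ, ‖a ^ k‖ ≤ M ^ k := by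
    intro k
    induction k with
    | zero => simpa using h1
    | succ k ih =>
      rw [pow_succ, pow_succ]
      refine (norm_mul_le _ _).trans ?_
      gcongr
  induction m with
  | zero => simp
  | succ m ih =>
    have e : a ^ (m + 1) - b ^ (m + 1) = a ^ m * (a - b) + (a ^ m - b ^ m) * b := by
      rw [pow_succ, pow_succ]; noncomm_ring
    rw [e]
    have h2 : ‖a ^ m * (a - b)‖ ≤ M ^ m * ‖a - b‖ := by
      refine (norm_mul_le _ _).trans ?_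
      gcongr
      exact hpa m
    have h3 : ‖(a ^ m - b ^ m) * b‖ ≤ (m * M ^ m * ‖a - b‖) * M := by
      refine (norm_mul_le _ _).trans ?_
      gcongr
    have hM0 : 0 ≤ M := zero_le_one.trans hM
    calc ‖a ^ m * (a - b) + (a ^ m - b ^ m) * b‖
        ≤ M ^ m * ‖a - b‖ + (m * M ^ m * ‖a - b‖) * M := (norm_add_le _ _).trans (add_le_add h2 h3)
      _ ≤ (M ^ m * M) * ‖a - b‖ + (m * M ^ m * ‖a - b‖) * M := by
          gcongr
          exact le_mul_of_one_le_right (by positivity) hM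
      _ = ((m + 1 : ℕ) : ℝ) * M ^ (m + 1) * ‖a - b‖ := by
          push_cast
          ring

end powers

variable {𝔸 : Type*} [NormedRing 𝔸] [NormedAlgebra ℂ 𝔸] [CompleteSpace 𝔸]

omit [CompleteSpace 𝔸] in
/-- norm of the exponential -/
theorem norm_exp_le' (h1 : ‖(1 : 𝔸)‖ ≤ 1) (x : 𝔸) : ‖exp x‖ ≤ Real.exp ‖x‖ := by
  have h2 : ∀ n : ℕ, ‖((n.factorial : ℂ)⁻¹) • x ^ n‖ ≤ ‖x‖ ^ n / n.factorial := by
    intro n
    rw [norm_smul, norm_inv, Complex.norm_natCast, div_eq_inv_mul]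
    gcongr
    rcases Nat.eq_zero_or_pos n with hn | hn
    · subst hn; simpa using h1
    · exact norm_pow_le' x hn
  have hs : Summable fun n : ℕ => ‖x‖ ^ n / (n.factorial : ℝ) := Real.summable_pow_div_factorial _
  rw [exp_eq_tsum ℂ, Real.exp_eq_exp_ℝ, exp_eq_tsum_div]
  exact tsum_of_norm_bounded hs.hasSum h2

/-- first order remainder of the exponential -/
theorem norm_exp_sub_one_sub_le (_h1 : ‖(1 : 𝔸)‖ ≤ 1) (x : 𝔸) :
    ‖exp x - 1 - x‖ ≤ ‖x‖ ^ 2 * Real.exp ‖x‖ := by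
  have h2 : ∀ n : ℕ, ‖(((n + 2).factorial : ℂ)⁻¹) • x ^ (n + 2)‖ ≤
      ‖x‖ ^ 2 * (‖x‖ ^ n / n.factorial) := by
    intro n
    rw [norm_smul, norm_inv, Complex.norm_natCast]
    have h3 : ‖x ^ (n + 2)‖ ≤ ‖x‖ ^ (n + 2) := norm_pow_le' x (by omega)
    have h4 : ((n + 2).factorial : ℝ)⁻¹ ≤ (n.factorial : ℝ)⁻¹ := by
      apply inv_anti₀ (by positivity)
      exact_mod_cast Nat.factorial_le (by omega)
    calc ((n + 2).factorial : ℝ)⁻¹ * ‖x ^ (n + 2)‖ ≤ (n.factorial : ℝ)⁻¹ * ‖x‖ ^ (n + 2) := by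
          gcongr
      _ = _ := by rw [pow_add]; ring
  have hs : Summable fun n : ℕ => ‖x‖ ^ n / (n.factorial : ℝ) := Real.summable_pow_div_factorial _
  have hx : Summable fun n : ℕ => ((n.factorial : ℂ)⁻¹) • x ^ n := expSeries_summable' (𝕂 := ℂ) x
  have e : exp x - 1 - x = ∑' n : ℕ, (((n + 2).factorial : ℂ)⁻¹) • x ^ (n + 2) := by
    rw [exp_eq_tsum ℂ]
    have h5 := hx.sum_add_tsum_nat_add 2
    simp only [Finset.sum_range_succ, Finset.range_zero, Finset.sum_empty, zero_add,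
      Nat.factorial_zero, Nat.cast_one, inv_one, pow_zero, one_smul, Nat.factorial_one,
      pow_one] at h5
    show (∑' n : ℕ, ((n.factorial : ℂ)⁻¹) • x ^ n) - 1 - x = _
    rw [← h5]
    abel
  rw [e]
  have h6 : HasSum (fun n : ℕ => ‖x‖ ^ 2 * (‖x‖ ^ n / (n.factorial : ℝ))) (‖x‖ ^ 2 * Real.exp ‖x‖) := by
    have h7 := hs.hasSum.mul_left (‖x‖ ^ 2)
    rw [Real.exp_eq_exp_ℝ, exp_eq_tsum_div]
    exact h7
  exact tsum_of_norm_bounded h6 h2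

/-- a product formula with second order defect -/
theorem trotter_of_defect (h1 : ‖(1 : 𝔸)‖ ≤ 1) {f : ℕ → 𝔸} {C : 𝔸} {c K : ℝ} (hc : 0 ≤ c)
    (hC : ‖C‖ ≤ c) (hf : ∀ m : ℕ, 1 ≤ m → ‖f m‖ ≤ Real.exp (c / m))
    (hd : ∀ m : ℕ, 1 ≤ m → ‖f m - exp (((m : ℂ)⁻¹) • C)‖ ≤ K / (m : ℝ) ^ 2) :
    Tendsto (fun m : ℕ => f m ^ m) atTop (𝓝 (exp C)) := by
  rw [tendsto_iff_norm_sub_tendsto_zero]
  have hlim : Tendsto (fun m : ℕ => Real.exp c * K * (m : ℝ)⁻¹) atTop (𝓝 0) := by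
    have := (tendsto_inv_atTop_nhds_zero_nat (𝕜 := ℝ)).const_mul (Real.exp c * K)
    simpa using this
  refine squeeze_zero' (Eventually.of_forall fun _ => norm_nonneg _) ?_ hlim
  filter_upwards [eventually_ge_atTop 1] with m hm
  have hm0 : (m : ℝ) ≠ 0 := by positivity
  have hmc : (m : ℂ) ≠ 0 := by exact_mod_cast (by omega : m ≠ 0)
  have e1 : exp C = exp (((m : ℂ)⁻¹) • C) ^ m := by
    let _ : NormedAlgebra ℚ 𝔸 := NormedAlgebra.restrictScalars ℚ ℂ 𝔸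
    rw [← exp_nsmul, ← Nat.cast_smul_eq_nsmul ℂ, smul_smul, mul_inv_cancel₀ hmc, one_smul]
  have hb : ‖exp (((m : ℂ)⁻¹) • C)‖ ≤ Real.exp (c / m) := by
    refine (norm_exp_le' h1 _).trans ?_
    rw [norm_smul, norm_inv, Complex.norm_natCast]
    apply Real.exp_le_exp.2
    rw [div_eq_inv_mul]
    gcongr
  have hM : 1 ≤ Real.exp (c / m) := Real.one_le_exp (by positivity)
  rw [e1]
  refine (norm_pow_sub_pow_le' hM (hf m hm) hb m h1).trans ?_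
  have e2 : Real.exp (c / m) ^ m = Real.exp c := by
    rw [← Real.exp_nat_mul]
    congr 1
    field_simp
  rw [e2]
  calc (m : ℝ) * Real.exp c * ‖f m - exp (((m : ℂ)⁻¹) • C)‖
      ≤ (m : ℝ) * Real.exp c * (K / (m : ℝ) ^ 2) := by
        gcongr
        exact hd m hm
    _ = Real.exp c * K * (m : ℝ)⁻¹ := by
        field_simp

/-- products of exponentials, first order expansion -/
theorem prod_exp_expand (h1 : ‖(1 : 𝔸)‖ ≤ 1) (l : List 𝔸) :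
    ∃ K : ℝ, 0 ≤ K ∧ ∀ t : ℝ, 0 ≤ t → t ≤ 1 →
      ‖(l.map fun A => exp ((t : ℂ) • A)).prod - 1 - (t : ℂ) • l.sum‖ ≤ K * t ^ 2 ∧
      ‖(l.map fun A => exp ((t : ℂ) • A)).prod‖ ≤ Real.exp (t * (l.map fun A => ‖A‖).sum) := by
  induction l with
  | nil =>
    refine ⟨0, le_rfl, fun t _ _ => ?_⟩
    simp [h1]
  | cons A l ih =>
    obtain ⟨K, hK, ih⟩ := ih
    refine ⟨‖A‖ ^ 2 * Real.exp ‖A‖ * Real.exp ((l.map fun A => ‖A‖).sum) + K +
      ‖A‖ * (‖l.sum‖ + K), ?_, fun t ht0 ht1 => ?_⟩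
    · positivity
    obtain ⟨h2, h3⟩ := ih t ht0 ht1
    set P := (l.map fun A => exp ((t : ℂ) • A)).prod with hP
    have htn : ‖(t : ℂ) • A‖ = t * ‖A‖ := by
      rw [norm_smul, Complex.norm_real, Real.norm_eq_abs, abs_of_nonneg ht0]
    have hSn : 0 ≤ (l.map fun A => ‖A‖).sum := List.sum_nonneg (by
      intro x hx
      obtain ⟨a, _, rfl⟩ := List.mem_map.1 hx
      exact norm_nonneg _)
    have hE := norm_exp_sub_one_sub_le h1 ((t : ℂ) • A)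
    rw [htn] at hE
    have hP1 : ‖P‖ ≤ Real.exp ((l.map fun A => ‖A‖).sum) := by
      refine h3.trans (Real.exp_le_exp.2 ?_)
      nlinarith
    have hPm : ‖P - 1‖ ≤ t * (‖l.sum‖ + K) := by
      have e : P - 1 = (P - 1 - (t : ℂ) • l.sum) + (t : ℂ) • l.sum := by abel
      rw [e]
      refine (norm_add_le _ _).trans ?_
      rw [norm_smul, Complex.norm_real, Real.norm_eq_abs, abs_of_nonneg ht0]
      nlinarith [norm_nonneg l.sum, mul_nonneg hK (sq_nonneg t), mul_le_mul_of_nonneg_left ht1 (mul_nonneg hK ht0)]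
    constructor
    · rw [List.map_cons, List.prod_cons, List.sum_cons, ← hP]
      have e : exp ((t : ℂ) • A) * P - 1 - (t : ℂ) • (A + l.sum)
          = (exp ((t : ℂ) • A) - 1 - (t : ℂ) • A) * P + (P - 1 - (t : ℂ) • l.sum)
            + ((t : ℂ) • A) * (P - 1) := by
        rw [smul_add]
        noncomm_ring
      rw [e]
      have n1 : ‖(exp ((t : ℂ) • A) - 1 - (t : ℂ) • A) * P‖ ≤
          ‖A‖ ^ 2 * Real.exp ‖A‖ * Real.exp ((l.map fun A => ‖A‖).sum) * t ^ 2 := by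
        refine (norm_mul_le _ _).trans ?_
        have h4 : (t * ‖A‖) ^ 2 * Real.exp (t * ‖A‖) ≤ ‖A‖ ^ 2 * Real.exp ‖A‖ * t ^ 2 := by
          have : Real.exp (t * ‖A‖) ≤ Real.exp ‖A‖ := Real.exp_le_exp.2 (by nlinarith [norm_nonneg A])
          calc (t * ‖A‖) ^ 2 * Real.exp (t * ‖A‖) ≤ (t * ‖A‖) ^ 2 * Real.exp ‖A‖ := by gcongr
            _ = _ := by ring
        calc _ ≤ (‖A‖ ^ 2 * Real.exp ‖A‖ * t ^ 2) * Real.exp ((l.map fun A => ‖A‖).sum) :=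
              mul_le_mul (hE.trans h4) hP1 (norm_nonneg _) (by positivity)
          _ = _ := by ring
      have n2 : ‖((t : ℂ) • A) * (P - 1)‖ ≤ ‖A‖ * (‖l.sum‖ + K) * t ^ 2 := by
        refine (norm_mul_le _ _).trans ?_
        rw [htn]
        calc t * ‖A‖ * ‖P - 1‖ ≤ t * ‖A‖ * (t * (‖l.sum‖ + K)) := by gcongr
          _ = _ := by ring
      calc _ ≤ ‖(exp ((t : ℂ) • A) - 1 - (t : ℂ) • A) * P‖ + ‖P - 1 - (t : ℂ) • l.sum‖
            + ‖((t : ℂ) • A) * (P - 1)‖ := norm_add₃_le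
        _ ≤ _ := by linarith
    · rw [List.map_cons, List.prod_cons, List.map_cons, List.sum_cons, ← hP]
      refine (norm_mul_le _ _).trans ?_
      rw [mul_add, Real.exp_add]
      have h5 := norm_exp_le' h1 ((t : ℂ) • A)
      rw [htn] at h5
      exact mul_le_mul h5 h3 (norm_nonneg _) (Real.exp_pos _).le

omit [NormedAlgebra ℂ 𝔸] [CompleteSpace 𝔸] in
theorem norm_list_sum_le' (l : List 𝔸) : ‖l.sum‖ ≤ (l.map fun A => ‖A‖).sum := by
  induction l with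
  | nil => simp
  | cons A l ih =>
    rw [List.sum_cons, List.map_cons, List.sum_cons]
    exact (norm_add_le _ _).trans (add_le_add le_rfl ih)

/-- Lie-Trotter product formula for a finite product -/
theorem lie_trotter_list (h1 : ‖(1 : 𝔸)‖ ≤ 1) (l : List 𝔸) :
    Tendsto (fun m : ℕ => ((l.map fun A => exp (((m : ℂ)⁻¹) • A)).prod) ^ m) atTop
      (𝓝 (exp l.sum)) := by
  obtain ⟨K, hK, h⟩ := prod_exp_expand h1 l
  have hS : ‖l.sum‖ ≤ (l.map fun A => ‖A‖).sum := norm_list_sum_le' l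
  have hSn : 0 ≤ (l.map fun A => ‖A‖).sum := (norm_nonneg _).trans hS
  refine trotter_of_defect h1 (c := (l.map fun A => ‖A‖).sum)
    (K := K + ‖l.sum‖ ^ 2 * Real.exp ‖l.sum‖) hSn hS ?_ ?_
  · intro m hm
    have hm1 : ((m : ℝ)⁻¹) ≤ 1 := inv_le_one_of_one_le₀ (by exact_mod_cast hm)
    have h2 := (h ((m : ℝ)⁻¹) (by positivity) hm1).2
    rw [Complex.ofReal_inv, Complex.ofReal_natCast] at h2
    rwa [div_eq_inv_mul]
  · intro m hm
    have hm1 : ((m : ℝ)⁻¹) ≤ 1 := inv_le_one_of_one_le₀ (by exact_mod_cast hm)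
    have h2 := (h ((m : ℝ)⁻¹) (by positivity) hm1).1
    rw [Complex.ofReal_inv, Complex.ofReal_natCast] at h2
    have h3 := norm_exp_sub_one_sub_le h1 (((m : ℂ)⁻¹) • l.sum)
    have h4 : ‖((m : ℂ)⁻¹) • l.sum‖ = (m : ℝ)⁻¹ * ‖l.sum‖ := by
      rw [norm_smul, norm_inv, Complex.norm_natCast]
    rw [h4] at h3
    have h5 : Real.exp ((m : ℝ)⁻¹ * ‖l.sum‖) ≤ Real.exp ‖l.sum‖ :=
      Real.exp_le_exp.2 (by nlinarith [norm_nonneg l.sum])
    have e : (l.map fun A => exp (((m : ℂ)⁻¹) • A)).prod - exp (((m : ℂ)⁻¹) • l.sum)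
        = ((l.map fun A => exp (((m : ℂ)⁻¹) • A)).prod - 1 - ((m : ℂ)⁻¹) • l.sum)
          - (exp (((m : ℂ)⁻¹) • l.sum) - 1 - ((m : ℂ)⁻¹) • l.sum) := by abel
    rw [e]
    refine (norm_sub_le _ _).trans ?_
    have h6 : ((m : ℝ)⁻¹ * ‖l.sum‖) ^ 2 * Real.exp ((m : ℝ)⁻¹ * ‖l.sum‖)
        ≤ ‖l.sum‖ ^ 2 * Real.exp ‖l.sum‖ * ((m : ℝ)⁻¹) ^ 2 := by
      calc ((m : ℝ)⁻¹ * ‖l.sum‖) ^ 2 * Real.exp ((m : ℝ)⁻¹ * ‖l.sum‖)
          ≤ ((m : ℝ)⁻¹ * ‖l.sum‖) ^ 2 * Real.exp ‖l.sum‖ := by gcongr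
        _ = _ := by ring
    have e2 : (K + ‖l.sum‖ ^ 2 * Real.exp ‖l.sum‖) / (m : ℝ) ^ 2
        = K * ((m : ℝ)⁻¹) ^ 2 + ‖l.sum‖ ^ 2 * Real.exp ‖l.sum‖ * ((m : ℝ)⁻¹) ^ 2 := by
      rw [div_eq_mul_inv, inv_pow]; ring
    rw [e2]
    linarith

/-- Lie-Trotter product formula for two bounded operators -/
theorem lie_trotter (h1 : ‖(1 : 𝔸)‖ ≤ 1) (A B : 𝔸) :
    Tendsto (fun m : ℕ => (exp (((m : ℂ)⁻¹) • A) * exp (((m : ℂ)⁻¹) • B)) ^ m) atTop
      (𝓝 (exp (A + B))) := by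
  have h := lie_trotter_list h1 [A, B]
  simpa using h

end Vale.Agent.P361TrotB
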