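import Vale.Agent.P361.LRO.Defs
import Vale.Agent.P361.LRO.LY.Trotter

/-!
P361, block (8): Lie-Trotter for the static Gibbs state, complex matrices.
-/

namespace Vale.Agent.P361.LRO.LY

open Finset Matrix Filter Topology

noncomputable section

variable {V : Type} [Fintype V] [DecidableEq V]

/-- Complexification of a real matrix. -/
def cM {m : Type} (A : Matrix m m ℝ) : Matrix m m ℂ := A.map (fun t : ℝ => (t : ℂ))

/-- The exchange, complex. -/
def swapC (x y : V) : Matrix (V → Fin 2) (V → Fin 2) ℂ :=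
  Matrix.of fun σ τ => if σ = τ ∘ Equiv.swap x y then 1 else 0

/-- Gate. -/
def gateC (x y : V) (p : ℝ) : Matrix (V → Fin 2) (V → Fin 2) ℂ :=
  ((1 - p : ℝ) : ℂ) • (1 : Matrix (V → Fin 2) (V → Fin 2) ℂ) + ((p : ℝ) : ℂ) • swapC x y

/-- Slice `∏_x exp (b_x σ³_x / 2)`. -/
def sliceC (b : V → ℝ) : Matrix (V → Fin 2) (V → Fin 2) ℂ :=
  Matrix.diagonal fun σ => ∏ x, Complex.exp (if σ x = 0 then (b x / 2 : ℝ) else (-(b x / 2) : ℝ))

/-- One Trotter step. -/
def stepC (L : List (V × V)) (β : ℝ) (h : V → ℝ) (N : ℕ) :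
    Matrix (V → Fin 2) (V → Fin 2) ℂ :=
  sliceC (fun x => β * h x / N) * (L.map fun e => gateC e.1 e.2 ((1 - Real.exp (-(β / N))) / 2)).prod

theorem cM_mul {m : Type} [Fintype m] (A B : Matrix m m ℝ) : cM (A * B) = cM A * cM B := by
  unfold cM
  ext i j
  simp [Matrix.mul_apply, Matrix.map_apply]

theorem cM_trace {m : Type} [Fintype m] (A : Matrix m m ℝ) :
    (cM A).trace = ((A.trace : ℝ) : ℂ) := by
  unfold cM
  simp [Matrix.trace]

theorem swapC_eq (x y : V) : swapC x y = cM (swapM x y) := by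
  ext σ τ
  simp only [swapC, cM, swapM, Matrix.of_apply, Matrix.map_apply]
  split_ifs <;> simp

theorem swapC_sq (x y : V) : swapC x y * swapC x y = (1 : Matrix (V → Fin 2) (V → Fin 2) ℂ) := by
  ext σ τ
  rw [Matrix.mul_apply, Finset.sum_eq_single (τ ∘ Equiv.swap x y)]
  · have h1 : (swapC x y : Matrix (V → Fin 2) (V → Fin 2) ℂ) (τ ∘ Equiv.swap x y) τ = 1 := by
      simp [swapC]
    have h2 : (τ ∘ Equiv.swap x y) ∘ Equiv.swap x y = τ := by
      funext z
      simp
    rw [h1, mul_one]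
    simp only [swapC, Matrix.of_apply, h2, Matrix.one_apply]
  · intro ρ _ hρ
    have h1 : (swapC x y : Matrix (V → Fin 2) (V → Fin 2) ℂ) ρ τ = 0 := by
      simp [swapC, hρ]
    rw [h1, mul_zero]
  · intro h
    exact absurd (Finset.mem_univ _) h

/-! ### Exponentials -/

section Exp

open scoped Matrix.Norms.Operator Nat

variable {m : Type} [Fintype m] [DecidableEq m]

theorem norm_one_le : ‖(1 : Matrix m m ℂ)‖ ≤ 1 := by
  rcases isEmpty_or_nonempty m with h | h
  · have : (1 : Matrix m m ℂ) = 0 := Subsingleton.elim _ _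
    rw [this, norm_zero]
    exact zero_le_one
  · rw [norm_one]

/-- Exponential of a multiple of an idempotent. -/
theorem exp_idem {Q : Matrix m m ℂ} (hQ : Q * Q = Q) (a : ℂ) :
    NormedSpace.exp (a • Q) = (1 - Q) + Complex.exp a • Q := by
  have h1 := NormedSpace.exp_series_hasSum_exp' (𝕂 := ℂ) (a • Q)
  have h2 := NormedSpace.exp_series_hasSum_exp' (𝕂 := ℂ) a
  have h3 : HasSum (fun n : ℕ => ((n !⁻¹ : ℂ) • a ^ n) • Q) (NormedSpace.exp a • Q) :=
    h2.smul_const Q
  have h4 : HasSum (fun n : ℕ => if n = 0 then (1 - Q) else 0) (1 - Q) := by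
    have := hasSum_ite_eq (0 : ℕ) (1 - Q)
    exact this
  have h5 := h4.add h3
  have h6 : (fun n : ℕ => (n !⁻¹ : ℂ) • (a • Q) ^ n) =
      fun n : ℕ => (if n = 0 then (1 - Q) else 0) + ((n !⁻¹ : ℂ) • a ^ n) • Q := by
    funext n
    have hp : ∀ k : ℕ, Q ^ (k + 1) = Q := by
      intro k
      induction k with
      | zero => rw [zero_add, pow_one]
      | succ k ih => rw [pow_succ, ih, hQ]
    rcases n with _ | n
    · simp
    · rw [if_neg (Nat.succ_ne_zero n), zero_add, smul_pow, hp n, smul_smul, smul_eq_mul]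
  rw [h6] at h1
  have h7 := h1.unique h5
  rw [← Complex.exp_eq_exp_ℂ] at h7
  exact h7

theorem hM_idem (x y : V) : cM (hM x y) * cM (hM x y) = cM (hM x y) := by
  have h1 : cM (hM x y) = (1 / 2 : ℂ) • ((1 : Matrix (V → Fin 2) (V → Fin 2) ℂ) - swapC x y) := by
    rw [swapC_eq]
    ext σ τ
    simp only [cM, hM, Matrix.map_apply, Matrix.smul_apply, Matrix.sub_apply, smul_eq_mul,
      Matrix.one_apply]
    push_cast
    split_ifs <;> simp
  rw [h1, smul_mul_smul_comm, sub_mul, mul_sub, mul_sub, swapC_sq, one_mul, mul_one, one_mul]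
  have : ((1 : Matrix (V → Fin 2) (V → Fin 2) ℂ) - swapC x y - (swapC x y - 1)) =
      (2 : ℂ) • ((1 : Matrix (V → Fin 2) (V → Fin 2) ℂ) - swapC x y) := by
    rw [two_smul]
    abel
  rw [this, smul_smul]
  norm_num

theorem gate_exp (x y : V) (t : ℝ) :
    NormedSpace.exp (((-t : ℝ) : ℂ) • cM (hM x y)) = gateC x y ((1 - Real.exp (-t)) / 2) := by
  rw [exp_idem (hM_idem x y)]
  have h1 : cM (hM x y) = (1 / 2 : ℂ) • ((1 : Matrix (V → Fin 2) (V → Fin 2) ℂ) - swapC x y) := by
    rw [swapC_eq]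
    ext σ τ
    simp only [cM, hM, Matrix.map_apply, Matrix.smul_apply, Matrix.sub_apply, smul_eq_mul,
      Matrix.one_apply]
    push_cast
    split_ifs <;> simp
  rw [h1, gateC]
  ext σ τ
  simp only [Matrix.add_apply, Matrix.sub_apply, Matrix.smul_apply, smul_eq_mul]
  push_cast
  ring

theorem slice_exp (b : V → ℝ) :
    NormedSpace.exp (cM (∑ x, (b x / 2) • szM x)) = sliceC b := by
  have h1 : cM (∑ x, (b x / 2) • szM x) = Matrix.diagonal fun σ : V → Fin 2 =>
      ∑ x, ((if σ x = 0 then (b x / 2 : ℝ) else (-(b x / 2) : ℝ) : ℝ) : ℂ) := by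
    ext σ τ
    simp only [cM, Matrix.map_apply, Matrix.sum_apply, Matrix.smul_apply, szM, smul_eq_mul,
      Matrix.diagonal_apply]
    by_cases h : σ = τ
    · subst h
      simp only [if_true]
      push_cast
      refine Finset.sum_congr rfl fun x _ => ?_
      split_ifs <;> push_cast <;> ring
    · simp [h]
  rw [h1, Matrix.exp_diagonal, sliceC]
  congr 1
  funext σ
  rw [Pi.coe_exp, ← Complex.exp_eq_exp_ℂ, Complex.exp_sum]
  refine Finset.prod_congr rfl fun x _ => ?_
  congr 1
  split_ifs <;> rfl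

theorem cM_exp (A : Matrix m m ℝ) : cM (NormedSpace.exp A) = NormedSpace.exp (cM A) := by
  have h := NormedSpace.map_exp (𝔸 := Matrix m m ℝ) (𝔹 := Matrix m m ℂ)
    (RingHom.mapMatrix (m := m) Complex.ofRealHom) ?_ A
  · exact h
  · exact Continuous.matrix_map continuous_id Complex.continuous_ofReal

theorem smul_list_sum (c : ℝ) (L : List (V × V)) :
    (L.map fun e => ((c : ℝ) : ℂ) • cM (hM e.1 e.2)).sum =
      ((c : ℝ) : ℂ) • cM (L.map fun e => hM e.1 e.2).sum := by
  induction L with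
  | nil =>
    ext σ τ
    simp [cM]
  | cons e L ih =>
    rw [List.map_cons, List.sum_cons, ih, List.map_cons, List.sum_cons]
    ext σ τ
    simp only [cM, Matrix.add_apply, Matrix.smul_apply, Matrix.map_apply, smul_eq_mul]
    push_cast
    ring

theorem step_tendsto (L : List (V × V)) (β : ℝ) (h : V → ℝ) :
    Tendsto (fun N : ℕ => stepC L β h N ^ N) atTop
      (𝓝 (cM (NormedSpace.exp (-β • ham L h)))) := by
  have h1 := Vale.Agent.P361TrotB.lie_trotter_list (𝔸 := Matrix (V → Fin 2) (V → Fin 2) ℂ)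
    norm_one_le (cM (∑ x, (β * h x / 2) • szM x) ::
      L.map fun e => ((-β : ℝ) : ℂ) • cM (hM e.1 e.2))
  have hsum : (cM (∑ x, (β * h x / 2) • szM x) ::
      L.map fun e => ((-β : ℝ) : ℂ) • cM (hM e.1 e.2)).sum = cM (-β • ham L h) := by
    rw [List.sum_cons]
    rw [smul_list_sum]
    ext σ τ
    simp only [cM, ham, Matrix.add_apply, Matrix.smul_apply, Matrix.map_apply, Matrix.sub_apply,
      smul_eq_mul, Matrix.sum_apply]
    rw [mul_sub, Finset.mul_sum]
    push_cast
    rw [sub_eq_add_neg, ← Finset.sum_neg_distrib, add_comm]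
    congr 1
    refine Finset.sum_congr rfl fun x _ => ?_
    ring
  rw [hsum] at h1
  rw [cM_exp]
  refine Tendsto.congr (fun N => ?_) h1
  congr 1
  rw [List.map_cons, List.prod_cons, List.map_map, stepC]
  congr 1
  · rw [← slice_exp]
    congr 1
    ext σ τ
    simp only [cM, Matrix.smul_apply, Matrix.map_apply, smul_eq_mul, Matrix.sum_apply]
    push_cast
    rw [Finset.mul_sum]
    refine Finset.sum_congr rfl fun x _ => ?_
    ring
  · congr 1
    refine List.map_congr_left fun e _ => ?_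
    rw [Function.comp_apply, smul_smul, ← gate_exp]
    congr 2
    push_cast
    ring

theorem trace_tendsto (L : List (V × V)) (β : ℝ) (h : V → ℝ)
    (A : Matrix (V → Fin 2) (V → Fin 2) ℝ) :
    Tendsto (fun N : ℕ => (stepC L β h N ^ N * cM A).trace) atTop
      (𝓝 (((NormedSpace.exp (-β • ham L h) * A).trace : ℝ) : ℂ)) := by
  have h1 := step_tendsto L β h
  have h2 : Continuous fun X : Matrix (V → Fin 2) (V → Fin 2) ℂ => (X * cM A).trace :=
    Continuous.matrix_trace (continuous_id.mul continuous_const)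
  have h3 := (h2.tendsto _).comp h1
  rw [← cM_mul, cM_trace] at h3
  exact h3

end Exp

end

end Vale.Agent.P361.LRO.LY
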