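import Vale.Agent.P361.LRO.Top.Iface
import Vale.Agent.P361.LRO.LY.Limit
import Vale.Agent.P361.LRO.Fin.Boot
import Vale.Agent.P361.LRO.Fin.CMat

/-!
P361, block (8): from the finite Trotter number (`FinReg`) to the Gibbs state (`RegStmt`).
-/

namespace Vale.Agent.P361.LRO.LY

open Finset Matrix Filter Topology

noncomputable section

/-- The regularity at finite Trotter number. -/
def FinReg : Prop :=
  ∀ (V : Type) [Fintype V] [DecidableEq V] (L : List (V × V)) (β : ℝ) (h h' : V → ℝ) (s : ℝ)
    (N : ℕ) (z : V), 0 < β → (∀ x, 0 < h x) → (∀ x, 0 < h' x) → 0 ≤ s → 3 * s < Real.pi / 2 →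
    (∀ x, |Real.log (h x) - Real.log (h' x)| ≤ s) → 2 ≤ N →
    0 < (stepC L β h N ^ N).trace.re → 0 < (stepC L β h' N ^ N).trace.re →
    0 < (stepC L β h N ^ N * cM (szM z)).trace.re ∧
    0 < (stepC L β h' N ^ N * cM (szM z)).trace.re ∧
    (stepC L β h' N ^ N).trace.re / (stepC L β h' N ^ N * cM (szM z)).trace.re - 1 ≤
      2 * ((stepC L β h N ^ N).trace.re / (stepC L β h N ^ N * cM (szM z)).trace.re - 1) +
        9 / 2 * s ^ 2

section Limit

variable {V : Type} [Fintype V] [DecidableEq V] (L : List (V × V)) (β : ℝ) (h : V → ℝ) (z : V)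

/-- Partition function. -/
def ZS : ℝ := Matrix.trace (NormedSpace.exp (-β • ham L h))

/-- The numerator of the magnetization. -/
def AS : ℝ := Matrix.trace (NormedSpace.exp (-β • ham L h) * szM z)

theorem ZS_pos : 0 < ZS L β h := Z_pos L β h

theorem one_sub_two_rho : 1 - 2 * rho L β h z = AS L β h z / ZS L β h := by
  have hZ := (ZS_pos L β h).ne'
  unfold rho gib
  rw [Matrix.mul_smul, Matrix.trace_smul, Matrix.mul_sub, Matrix.mul_one, Matrix.trace_sub,
    smul_eq_mul]
  change 1 - 2 * (1 / 2 * (ZS L β h - AS L β h z) / ZS L β h) = _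
  field_simp
  ring

theorem ZS_tendsto : Tendsto (fun N : ℕ => (stepC L β h N ^ N).trace.re) atTop
    (𝓝 (ZS L β h)) := by
  have h1 := trace_tendsto L β h 1
  have h2 : (cM (1 : Matrix (V → Fin 2) (V → Fin 2) ℝ)) = 1 := by
    ext i j
    by_cases hij : i = j
    · subst hij; simp [cM]
    · simp [cM, hij]
  simp only [h2, Matrix.mul_one] at h1
  have h3 := (Complex.continuous_re.tendsto _).comp h1
  rw [Complex.ofReal_re] at h3
  exact h3

theorem AS_tendsto : Tendsto (fun N : ℕ => (stepC L β h N ^ N * cM (szM z)).trace.re) atTop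
    (𝓝 (AS L β h z)) := by
  have h1 := trace_tendsto L β h (szM z)
  have h3 := (Complex.continuous_re.tendsto _).comp h1
  rw [Complex.ofReal_re] at h3
  exact h3

end Limit

section Lim2

variable {V : Type} [Fintype V] [DecidableEq V] (L : List (V × V)) {β : ℝ} {h h' : V → ℝ} {s : ℝ}

/-- The limit of the inequality. -/
theorem lim_ineq (H : FinReg) (hβ : 0 < β) (hh : ∀ x, 0 < h x) (hh' : ∀ x, 0 < h' x) (hs : 0 ≤ s)
    (hs' : 3 * s < Real.pi / 2) (hd : ∀ x, |Real.log (h x) - Real.log (h' x)| ≤ s) (z : V) :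
    0 ≤ AS L β h z ∧ 0 ≤ AS L β h' z ∧
    (ZS L β h' - AS L β h' z) * AS L β h z ≤
      2 * (ZS L β h - AS L β h z) * AS L β h' z + 9 / 2 * s ^ 2 * (AS L β h z * AS L β h' z) := by
  have hF : ∀ᶠ N : ℕ in atTop, 2 ≤ N ∧ 0 < (stepC L β h N ^ N).trace.re ∧
      0 < (stepC L β h' N ^ N).trace.re :=
    (eventually_ge_atTop 2).and
      (((ZS_tendsto L β h).eventually (lt_mem_nhds (ZS_pos L β h))).and
        ((ZS_tendsto L β h').eventually (lt_mem_nhds (ZS_pos L β h'))))
  refine ⟨?_, ?_, ?_⟩
  · refine ge_of_tendsto (AS_tendsto L β h z) ?_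
    filter_upwards [hF] with N hN
    exact (H V L β h h' s N z hβ hh hh' hs hs' hd hN.1 hN.2.1 hN.2.2).1.le
  · refine ge_of_tendsto (AS_tendsto L β h' z) ?_
    filter_upwards [hF] with N hN
    exact (H V L β h h' s N z hβ hh hh' hs hs' hd hN.1 hN.2.1 hN.2.2).2.1.le
  · have t1 := ((ZS_tendsto L β h').sub (AS_tendsto L β h' z)).mul (AS_tendsto L β h z)
    have t2 := ((((ZS_tendsto L β h).sub (AS_tendsto L β h z)).const_mul 2).mul
      (AS_tendsto L β h' z)).add
      (((AS_tendsto L β h z).mul (AS_tendsto L β h' z)).const_mul (9 / 2 * s ^ 2))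
    refine le_of_tendsto_of_tendsto t1 t2 ?_
    filter_upwards [hF] with N hN
    obtain ⟨hA, hA', hI⟩ := H V L β h h' s N z hβ hh hh' hs hs' hd hN.1 hN.2.1 hN.2.2
    set Z := (stepC L β h N ^ N).trace.re
    set A := (stepC L β h N ^ N * cM (szM z)).trace.re
    set Z' := (stepC L β h' N ^ N).trace.re
    set A' := (stepC L β h' N ^ N * cM (szM z)).trace.re
    have e1 : (Z' - A') * A = (Z' / A' - 1) * (A * A') := by
      field_simp
    have e2 : 2 * (Z - A) * A' + 9 / 2 * s ^ 2 * (A * A') =
        (2 * (Z / A - 1) + 9 / 2 * s ^ 2) * (A * A') := by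
      field_simp
    calc (Z' - A') * A = (Z' / A' - 1) * (A * A') := e1
      _ ≤ (2 * (Z / A - 1) + 9 / 2 * s ^ 2) * (A * A') :=
          mul_le_mul_of_nonneg_right hI (mul_pos hA hA').le
      _ = 2 * (Z - A) * A' + 9 / 2 * s ^ 2 * (A * A') := e2.symm

/-- Positivity propagates. -/
theorem pos_step (H : FinReg) (hβ : 0 < β) (hh : ∀ x, 0 < h x) (hh' : ∀ x, 0 < h' x) (hs : 0 ≤ s)
    (hs' : 3 * s < Real.pi / 2) (hd : ∀ x, |Real.log (h x) - Real.log (h' x)| ≤ s) {z : V}
    (hp : 0 < AS L β h z) : 0 < AS L β h' z := by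
  obtain ⟨_, h2, h3⟩ := lim_ineq L H hβ hh hh' hs hs' hd z
  rcases h2.lt_or_eq with h2 | h2
  · exact h2
  · exfalso
    rw [← h2, mul_zero, mul_zero, mul_zero, sub_zero, add_zero] at h3
    exact absurd (mul_pos (ZS_pos L β h') hp) (not_lt.mpr h3)

end Lim2

section Large

variable {V : Type} [Fintype V] [DecidableEq V] (L : List (V × V)) {β : ℝ} {h : V → ℝ}

theorem swapM_up (x y : V) : (swapM x y : Matrix (V → Fin 2) (V → Fin 2) ℝ) 0 0 = 1 := by
  unfold swapM
  rw [Matrix.of_apply, if_pos]
  rfl

theorem hM_up (x y : V) : (hM x y : Matrix (V → Fin 2) (V → Fin 2) ℝ) 0 0 = 0 := by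
  unfold hM
  rw [Matrix.smul_apply, Matrix.sub_apply, swapM_up, Matrix.one_apply_eq]
  simp

theorem ham_up (h : V → ℝ) : (ham L h) 0 0 = -∑ x, h x / 2 := by
  unfold ham
  have h1 : ∀ l : List (V × V), ((l.map fun e => hM e.1 e.2).sum :
      Matrix (V → Fin 2) (V → Fin 2) ℝ) 0 0 = 0 := by
    intro l
    induction l with
    | nil => simp
    | cons e l ih => rw [List.map_cons, List.sum_cons, Matrix.add_apply, ih, hM_up, add_zero]
  rw [Matrix.sub_apply, h1, Matrix.sum_apply, zero_sub]
  congr 1
  refine Finset.sum_congr rfl fun x _ => ?_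
  simp [szM]

theorem exp_le_ZS (h : V → ℝ) : Real.exp (β * ∑ x, h x / 2) ≤ ZS L β h := by
  have hs := exponent_isSymm L β h
  have hH := LRO.cM_isHermitian hs
  have h1 := Vale.Agent.P361.peierls hH (V := 1) (by simp)
  rw [exp_cM, trace_cM_re] at h1
  refine le_trans ?_ h1
  have h2 : ∀ i : V → Fin 2,
      (star (1 : Matrix (V → Fin 2) (V → Fin 2) ℂ) * LRO.cM (-β • ham L h) *
        (1 : Matrix (V → Fin 2) (V → Fin 2) ℂ)) i i = (((-β • ham L h) i i : ℝ) : ℂ) := by
    intro i
    rw [star_one, Matrix.one_mul, Matrix.mul_one, LRO.cM_apply]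
  have h3 : Real.exp (β * ∑ x, h x / 2) = Real.exp ((((-β • ham L h) 0 0 : ℝ) : ℂ).re) := by
    congr 1
    rw [Complex.ofReal_re, Matrix.smul_apply, ham_up, smul_eq_mul]
    ring
  simp only [h2]
  rw [h3]
  exact Finset.single_le_sum (f := fun i : V → Fin 2 => Real.exp
    ((((-β • ham L h) i i : ℝ) : ℂ).re))
    (fun i _ => (Real.exp_pos _).le) (Finset.mem_univ (0 : V → Fin 2))

theorem ham_update (h : V → ℝ) (z : V) (t : ℝ) :
    ham L (Function.update h z (h z + t)) = ham L h - (t / 2) • szM z := by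
  unfold ham
  rw [sub_sub]
  congr 1
  have h1 : ∀ x, (Function.update h z (h z + t) x / 2) • szM x =
      (h x / 2) • szM x + (if x = z then (t / 2) • szM z else 0) := by
    intro x
    by_cases hx : x = z
    · subst hx
      rw [Function.update_self, if_pos rfl, ← add_smul]
      congr 1
      ring
    · rw [Function.update_of_ne hx, if_neg hx, add_zero]
  simp only [h1, Finset.sum_add_distrib, Finset.sum_ite_eq', Finset.mem_univ, if_true]

/-- Some large field makes the magnetization positive. -/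
theorem exists_pos (hβ : 0 < β) (hh : ∀ x, 0 < h x) (z : V) :
    ∃ t : ℝ, 0 < t ∧ 0 < AS L β (Function.update h z (h z + t)) z := by
  set S := |Real.log (ZS L β h)| + 1 with hS
  have hS0 : 0 < S := by positivity
  refine ⟨2 * S / β, by positivity, ?_⟩
  set t := 2 * S / β with ht
  set h' := Function.update h z (h z + t) with hh'
  have hX := exponent_isSymm L β h'
  have hY : ((-(β * t / 2)) • szM z : Matrix (V → Fin 2) (V → Fin 2) ℝ).IsSymm := by
    rw [Matrix.IsSymm, Matrix.transpose_smul, szM_isSymm]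
  have hXY : (-β • ham L h') + (-(β * t / 2)) • szM z = -β • ham L h := by
    rw [hh', ham_update, smul_sub, smul_smul, sub_eq_add_neg, add_assoc, ← neg_smul, ← add_smul]
    have : (-(-β * (t / 2)) + -(β * t / 2)) = 0 := by ring
    rw [this, zero_smul, add_zero]
  have h1 := peierls_bogoliubov_real hX hY
  rw [hXY, Matrix.mul_smul, Matrix.trace_smul, smul_eq_mul] at h1
  change Real.log (ZS L β h') + -(β * t / 2) * AS L β h' z / ZS L β h' ≤
    Real.log (ZS L β h) at h1
  have h2 : β * ∑ x, h' x / 2 ≤ Real.log (ZS L β h') := by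
    rw [Real.le_log_iff_exp_le (ZS_pos L β h')]
    exact exp_le_ZS L h'
  have h3 : β * t / 2 ≤ β * ∑ x, h' x / 2 := by
    have h4 : t / 2 ≤ ∑ x, h' x / 2 := by
      have h5 : h' z / 2 ≤ ∑ x, h' x / 2 := by
        refine Finset.single_le_sum (f := fun x => h' x / 2) (fun x _ => ?_) (Finset.mem_univ z)
        have : 0 < h' x := by
          rw [hh']
          by_cases hx : x = z
          · subst hx
            rw [Function.update_self]
            have := hh x
            positivity
          · rw [Function.update_of_ne hx]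
            exact hh x
        positivity
      have h6 : t ≤ h' z := by
        rw [hh', Function.update_self]
        have := hh z
        linarith
      linarith
    calc β * t / 2 = β * (t / 2) := by ring
      _ ≤ _ := mul_le_mul_of_nonneg_left h4 hβ.le
  have h7 : β * t / 2 = S := by
    rw [ht]; field_simp
  have h8 : Real.log (ZS L β h) < S := by
    rw [hS]
    have := le_abs_self (Real.log (ZS L β h))
    linarith
  by_contra hc
  rw [not_lt] at hc
  have h9 : 0 ≤ -(β * t / 2) * AS L β h' z / ZS L β h' := by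
    refine div_nonneg ?_ (ZS_pos L β h').le
    rw [neg_mul]
    have : 0 ≤ β * t / 2 := by rw [h7]; exact hS0.le
    nlinarith
  linarith

end Large

section Final

variable {V : Type} [Fintype V] [DecidableEq V] (L : List (V × V)) {β : ℝ}

omit [Fintype V] in
theorem update_exp_pos {h : V → ℝ} (hh : ∀ x, 0 < h x) (z : V) (u : ℝ) (x : V) :
    0 < Function.update h z (Real.exp u) x := by
  by_cases hx : x = z
  · subst hx
    rw [Function.update_self]
    exact Real.exp_pos u
  · rw [Function.update_of_ne hx]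
    exact hh x

omit [Fintype V] in
theorem log_update {h : V → ℝ} (z : V) (u v : ℝ) (x : V) :
    |Real.log (Function.update h z (Real.exp u) x) -
      Real.log (Function.update h z (Real.exp v) x)| ≤ |u - v| := by
  by_cases hx : x = z
  · subst hx
    rw [Function.update_self, Function.update_self, Real.log_exp, Real.log_exp]
  · rw [Function.update_of_ne hx, Function.update_of_ne hx, sub_self, abs_zero]
    exact abs_nonneg _

theorem AS_pos_chain (H : FinReg) (hβ : 0 < β) {h : V → ℝ} (hh : ∀ x, 0 < h x) (z : V) :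
    ∀ (n : ℕ) (u v : ℝ), |u - v| ≤ n / 2 →
      0 < AS L β (Function.update h z (Real.exp u)) z →
      0 < AS L β (Function.update h z (Real.exp v)) z := by
  have h0 : ∀ u v : ℝ, |u - v| ≤ 1 / 2 → 0 < AS L β (Function.update h z (Real.exp u)) z →
      0 < AS L β (Function.update h z (Real.exp v)) z := by
    intro u v huv hp
    refine pos_step L H hβ (update_exp_pos hh z u) (update_exp_pos hh z v) (s := 1 / 2)
      (by norm_num) (by have := Real.pi_gt_three; linarith)
      (fun x => (log_update z u v x).trans huv) hp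
  intro n
  induction n with
  | zero =>
    intro u v huv hp
    rw [Nat.cast_zero, zero_div] at huv
    have : u = v := by
      have := abs_nonneg (u - v)
      have h1 : |u - v| = 0 := le_antisymm huv this
      exact sub_eq_zero.mp (abs_eq_zero.mp h1)
    rwa [← this]
  | succ n ih =>
    intro u v huv hp
    push_cast at huv
    rcases le_or_gt |u - v| (1 / 2) with hle | hgt
    · exact h0 u v hle hp
    · rcases abs_cases (u - v) with ⟨ha, hb⟩ | ⟨ha, hb⟩
      · refine ih (u - 1 / 2) v ?_ (h0 u (u - 1 / 2) ?_ hp)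
        · rw [abs_le]; constructor <;> linarith
        · rw [abs_le]; constructor <;> linarith
      · refine ih (u + 1 / 2) v ?_ (h0 u (u + 1 / 2) ?_ hp)
        · rw [abs_le]; constructor <;> linarith
        · rw [abs_le]; constructor <;> linarith

theorem AS_pos (H : FinReg) (hβ : 0 < β) {h : V → ℝ} (hh : ∀ x, 0 < h x) (z : V) :
    0 < AS L β h z := by
  obtain ⟨t, ht, hp⟩ := exists_pos L hβ hh z
  have hz := hh z
  have e1 : Function.update h z (h z + t) = Function.update h z (Real.exp (Real.log (h z + t))) := by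
    rw [Real.exp_log (by linarith)]
  have e2 : h = Function.update h z (Real.exp (Real.log (h z))) := by
    rw [Real.exp_log hz, Function.update_eq_self]
  rw [e1] at hp
  obtain ⟨n, hn⟩ := exists_nat_ge (2 * |Real.log (h z + t) - Real.log (h z)|)
  rw [e2]
  exact AS_pos_chain L H hβ hh z n _ _ (by linarith) hp

end Final

/-- `RegStmt` from the regularity at finite Trotter number. -/
theorem regStmt_of (H : FinReg) : RegStmt := by
  intro V _ _ L β h h' s hβ hh hh' hs hs' hd z
  have hA := AS_pos L H hβ hh z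
  have hA' := AS_pos L H hβ hh' z
  have hZ := ZS_pos L β h
  have hZ' := ZS_pos L β h'
  obtain ⟨_, _, h3⟩ := lim_ineq L H hβ hh hh' hs hs' hd z
  rw [one_sub_two_rho, one_sub_two_rho, one_div_div, one_div_div]
  refine ⟨div_pos hA hZ, ?_⟩
  have e1 : ZS L β h' / AS L β h' z - 1 =
      ((ZS L β h' - AS L β h' z) * AS L β h z) / (AS L β h z * AS L β h' z) := by
    field_simp
  have e2 : 2 * (ZS L β h / AS L β h z - 1) + 9 / 2 * s ^ 2 =
      (2 * (ZS L β h - AS L β h z) * AS L β h' z + 9 / 2 * s ^ 2 * (AS L β h z * AS L β h' z)) /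
        (AS L β h z * AS L β h' z) := by
    field_simp
  rw [e1, e2]
  exact div_le_div_of_nonneg_right h3 (mul_pos hA hA').le

end

end Vale.Agent.P361.LRO.LY
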