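import Vale.Agent.P361.LRO.LY.Form

/-! P361, LRO, block (8), file 2: operators on `(ℂ²)^V` preserving a hemisphere. -/

set_option linter.unusedSectionVars false

namespace Vale.Agent.P361.LRO.LY

open Matrix

variable {V : Type*} [Fintype V] [DecidableEq V]

/-- Pairing of a state with a product vector. -/
noncomputable def ev (ψ : (V → Fin 2) → ℂ) (v : V → Fin 2 → ℂ) : ℂ :=
  ∑ s, (∏ x, v x (s x)) * ψ s

theorem prod_update (v : V → Fin 2 → ℂ) (x : V) (a : Fin 2 → ℂ) (s : V → Fin 2) :
    ∏ y, (Function.update v x a) y (s y)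
      = a (s x) * ∏ y ∈ Finset.univ.erase x, v y (s y) := by
  rw [← Finset.mul_prod_erase Finset.univ _ (Finset.mem_univ x), Function.update_self]
  congr 1
  refine Finset.prod_congr rfl fun y hy => ?_
  rw [Function.update_of_ne (Finset.ne_of_mem_erase hy)]

theorem ev_update_lin (ψ : (V → Fin 2) → ℂ) (v : V → Fin 2 → ℂ) (x : V) :
    IsLinearMap ℂ (fun a => ev ψ (Function.update v x a)) := by
  constructor
  · intro a b
    simp only [ev, prod_update, Pi.add_apply]
    rw [← Finset.sum_add_distrib]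
    refine Finset.sum_congr rfl fun s _ => ?_
    ring
  · intro c a
    simp only [ev, prod_update, Pi.smul_apply, smul_eq_mul]
    rw [Finset.mul_sum]
    refine Finset.sum_congr rfl fun s _ => ?_
    ring

/-- Nonvanishing on the open cone. -/
def Stable (g : ℝ) (ψ : (V → Fin 2) → ℂ) : Prop :=
  ∀ v : V → Fin 2 → ℂ, (∀ x, 0 < q g (v x)) → ev ψ v ≠ 0

/-- Operators preserving `Stable`. -/
def Good (g : ℝ) (K : Matrix (V → Fin 2) (V → Fin 2) ℂ) : Prop :=
  ∀ ψ, Stable g ψ → Stable g (K *ᵥ ψ)

theorem good_one (g : ℝ) : Good (V := V) g 1 := by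
  intro ψ h; rwa [Matrix.one_mulVec]

theorem Good.mul {g : ℝ} {K L : Matrix (V → Fin 2) (V → Fin 2) ℂ} (hK : Good g K)
    (hL : Good g L) : Good g (K * L) := by
  intro ψ h
  rw [← Matrix.mulVec_mulVec]
  exact hK _ (hL _ h)

/-- The swap of two coordinates, as a permutation of configurations. -/
def cswap (x y : V) (s : V → Fin 2) : V → Fin 2 := s ∘ Equiv.swap x y

/-- The swap operator. -/
def swMat (x y : V) : Matrix (V → Fin 2) (V → Fin 2) ℂ :=
  Matrix.of fun s s' => if s' = cswap x y s then 1 else 0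

/-- The gate `(1-p) + p P_{xy}`. -/
noncomputable def gateM (x y : V) (p : ℝ) : Matrix (V → Fin 2) (V → Fin 2) ℂ :=
  ((1 - p : ℝ) : ℂ) • (1 : Matrix (V → Fin 2) (V → Fin 2) ℂ) + (p : ℂ) • swMat x y

theorem swMat_mulVec (x y : V) (ψ : (V → Fin 2) → ℂ) (s : V → Fin 2) :
    (swMat x y *ᵥ ψ) s = ψ (cswap x y s) := by
  simp [swMat, Matrix.mulVec, dotProduct]

/-- Reindexing configurations by a swap. -/
def cswapEquiv (x y : V) : (V → Fin 2) ≃ (V → Fin 2) :=
  Equiv.arrowCongr (Equiv.swap x y) (Equiv.refl _)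

omit [Fintype V] in
theorem cswapEquiv_apply (x y : V) (s : V → Fin 2) : cswapEquiv x y s = cswap x y s := by
  funext z
  simp [cswapEquiv, cswap, Equiv.arrowCongr]

theorem ev_swap (x y : V) (ψ : (V → Fin 2) → ℂ) (v : V → Fin 2 → ℂ) :
    ev (swMat x y *ᵥ ψ) v = ev ψ (v ∘ Equiv.swap x y) := by
  simp only [ev, swMat_mulVec]
  rw [← Equiv.sum_comp (cswapEquiv x y)]
  refine Finset.sum_congr rfl fun s _ => ?_
  rw [cswapEquiv_apply]
  congr 1
  · rw [← Equiv.prod_comp (Equiv.swap x y)]
    refine Finset.prod_congr rfl fun z _ => ?_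
    simp [cswap]
  · congr 1
    funext z
    simp [cswap]

theorem ev_gate (x y : V) (p : ℝ) (ψ : (V → Fin 2) → ℂ) (v : V → Fin 2 → ℂ) :
    ev (gateM x y p *ᵥ ψ) v
      = ((1 - p : ℝ) : ℂ) * ev ψ v + (p : ℂ) * ev ψ (v ∘ Equiv.swap x y) := by
  rw [← ev_swap]
  simp only [ev, gateM, Matrix.add_mulVec, Matrix.smul_mulVec, Matrix.one_mulVec, Pi.add_apply,
    Pi.smul_apply, smul_eq_mul]
  rw [Finset.mul_sum, Finset.mul_sum, ← Finset.sum_add_distrib]
  refine Finset.sum_congr rfl fun s _ => ?_
  ring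

theorem good_gate (g : ℝ) {x y : V} (hxy : x ≠ y) {p : ℝ} (h0 : 0 ≤ p) (h1 : p ≤ 1) :
    Good g (gateM x y p) := by
  intro ψ hψ v hv
  rw [ev_gate]
  have e1 : ev ψ v = ev ψ (Function.update (Function.update v x (v x)) y (v y)) := by
    simp
  have e2 : v ∘ Equiv.swap x y = Function.update (Function.update v x (v y)) y (v x) := by
    funext z
    by_cases hz : z = x
    · subst hz
      rw [Function.update_of_ne hxy, Function.update_self]; simp
    · by_cases hz' : z = y
      · subst hz'; simp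
      · rw [Function.update_of_ne hz', Function.update_of_ne hz]
        simp [Equiv.swap_apply_of_ne_of_ne hz hz']
  rw [e1, e2]
  refine gate_two g (fun a b => ev ψ (Function.update (Function.update v x a) y b))
    ?_ ?_ ?_ h0 h1 _ _ (hv x) (hv y)
  · intro w
    have h2 : (fun a => ev ψ (Function.update (Function.update v x a) y w))
        = fun a => ev ψ (Function.update (Function.update v y w) x a) := by
      funext a
      rw [Function.update_comm hxy]
    rw [h2]
    exact ev_update_lin ψ (Function.update v y w) x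
  · intro w
    exact ev_update_lin ψ (Function.update v x w) y
  · intro a b ha hb
    refine hψ _ fun z => ?_
    by_cases hz' : z = y
    · subst hz'; simpa using hb
    · by_cases hz : z = x
      · subst hz; rw [Function.update_of_ne hxy, Function.update_self]; exact ha
      · rw [Function.update_of_ne hz', Function.update_of_ne hz]; exact hv z

theorem good_gate' (g : ℝ) (x y : V) {p : ℝ} (h0 : 0 ≤ p) (h1 : p ≤ 1) :
    Good g (gateM x y p) := by
  rcases eq_or_ne x y with rfl | hxy
  · have : gateM x x p = 1 := by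
      ext s s'
      simp only [gateM, swMat, cswap, Equiv.swap_self, Equiv.coe_refl, Function.comp_id,
        Matrix.add_apply, Matrix.smul_apply, Matrix.of_apply, smul_eq_mul, Matrix.one_apply]
      by_cases h : s = s'
      · subst h; simp
      · simp [h, Ne.symm h]
    rw [this]
    exact good_one g
  · exact good_gate g hxy h0 h1

/-- The field slice `∏_x exp(b_x σ³_x / 2)` (index `0` is spin up). -/
noncomputable def sliceM (b : V → ℂ) : Matrix (V → Fin 2) (V → Fin 2) ℂ :=
  Matrix.diagonal fun s => ∏ x, if s x = 0 then Complex.exp (b x / 2)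
    else Complex.exp (-(b x / 2))

omit [DecidableEq V] in
theorem fld_apply (b : ℂ) (v : Fin 2 → ℂ) (i : Fin 2) :
    fld b v i = v i * (if i = 0 then Complex.exp (b / 2) else Complex.exp (-(b / 2))) := by
  fin_cases i
  · simp [fld, mul_comm]
  · simp [fld, mul_comm]

theorem ev_slice (b : V → ℂ) (ψ : (V → Fin 2) → ℂ) (v : V → Fin 2 → ℂ) :
    ev (sliceM b *ᵥ ψ) v = ev ψ (fun x => fld (b x) (v x)) := by
  simp only [ev]
  refine Finset.sum_congr rfl fun s _ => ?_
  rw [sliceM, Matrix.mulVec_diagonal]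
  simp only [fld_apply]
  rw [Finset.prod_mul_distrib]
  ring

/-- Admissible field for the angle `g`. -/
def Adm (g : ℝ) (b : ℂ) : Prop := 0 < b.re ∧ |Real.sin g| * |b.im| ≤ Real.cos g * b.re

theorem fld_zero (v : Fin 2 → ℂ) : fld 0 v = v := by
  funext i
  rw [fld_apply]
  simp

theorem good_slice {g : ℝ} (hg : 0 < Real.cos g) {b : V → ℂ}
    (hb : ∀ x, b x = 0 ∨ Adm g (b x)) : Good g (sliceM b) := by
  intro ψ hψ v hv
  rw [ev_slice]
  refine hψ _ fun x => ?_
  rcases hb x with h | h
  · rw [h, fld_zero]; exact hv x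
  · exact fld_pos hg h.1 h.2 (ne_zero_of_q_pos (hv x)) (hv x).le

/-- Closed nonzero vectors. -/
def Cl (g : ℝ) (v : Fin 2 → ℂ) : Prop := v ≠ 0 ∧ 0 ≤ q g v

/-- The product state. -/
noncomputable def prodState (u : V → Fin 2 → ℂ) : (V → Fin 2) → ℂ := fun s => ∏ x, u x (s x)

theorem ev_prodState (u v : V → Fin 2 → ℂ) :
    ev (prodState u) v = ∏ x, (v x 0 * u x 0 + v x 1 * u x 1) := by
  simp only [ev, prodState]
  have h : ∀ x, v x 0 * u x 0 + v x 1 * u x 1 = ∑ i : Fin 2, v x i * u x i := by
    intro x; rw [Fin.sum_univ_two]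
  simp only [h]
  rw [Finset.prod_univ_sum]
  simp only [Fintype.piFinset_univ]
  refine Finset.sum_congr rfl fun s _ => ?_
  rw [Finset.prod_mul_distrib]

theorem stable_prodState {g : ℝ} {u : V → Fin 2 → ℂ} (hu : ∀ x, Cl g (u x)) :
    Stable g (prodState u) := by
  intro v hv
  rw [ev_prodState]
  exact Finset.prod_ne_zero_iff.mpr fun x _ => pair_ne_zero (hv x) (hu x).1 (hu x).2

/-- The contraction of `K` with site matrices. -/
noncomputable def G (K : Matrix (V → Fin 2) (V → Fin 2) ℂ) (W : V → Fin 2 → Fin 2 → ℂ) : ℂ :=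
  ∑ s, ∑ s', K s s' * ∏ x, W x (s x) (s' x)

theorem G_prod_eq_ev (K : Matrix (V → Fin 2) (V → Fin 2) ℂ) (v u : V → Fin 2 → ℂ) :
    G K (fun x i j => v x i * u x j) = ev (K *ᵥ prodState u) v := by
  simp only [G, ev, Matrix.mulVec, dotProduct, prodState]
  refine Finset.sum_congr rfl fun s _ => ?_
  rw [Finset.mul_sum]
  refine Finset.sum_congr rfl fun s' _ => ?_
  rw [Finset.prod_mul_distrib]
  ring

/-- Strict nonvanishing for `slice * K`. -/
theorem G_prod_ne_zero {g : ℝ} (hg : 0 < Real.cos g) {b : V → ℂ} (hb : ∀ x, Adm g (b x))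
    {K : Matrix (V → Fin 2) (V → Fin 2) ℂ} (hK : Good g K) {v u : V → Fin 2 → ℂ}
    (hv : ∀ x, Cl g (v x)) (hu : ∀ x, Cl g (u x)) :
    G (sliceM b * K) (fun x i j => v x i * u x j) ≠ 0 := by
  rw [G_prod_eq_ev, ← Matrix.mulVec_mulVec, ev_slice]
  refine hK _ (stable_prodState hu) _ fun x => ?_
  exact fld_pos hg (hb x).1 (hb x).2 (hv x).1 (hv x).2

theorem prod_update_mat (W : V → Fin 2 → Fin 2 → ℂ) (x : V) (M : Fin 2 → Fin 2 → ℂ)
    (s s' : V → Fin 2) :
    ∏ y, (Function.update W x M) y (s y) (s' y)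
      = M (s x) (s' x) * ∏ y ∈ Finset.univ.erase x, W y (s y) (s' y) := by
  rw [← Finset.mul_prod_erase Finset.univ _ (Finset.mem_univ x), Function.update_self]
  congr 1
  refine Finset.prod_congr rfl fun y hy => ?_
  rw [Function.update_of_ne (Finset.ne_of_mem_erase hy)]

/-- Matrix unit. -/
def E (i j : Fin 2) : Fin 2 → Fin 2 → ℂ := fun a b => if a = i ∧ b = j then 1 else 0

theorem G_update (K : Matrix (V → Fin 2) (V → Fin 2) ℂ) (W : V → Fin 2 → Fin 2 → ℂ) (x : V)
    (M : Fin 2 → Fin 2 → ℂ) :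
    G K (Function.update W x M) = ∑ i, ∑ j, G K (Function.update W x (E i j)) * M i j := by
  have hM : ∀ a b : Fin 2, M a b = ∑ i, ∑ j, E i j a b * M i j := by
    intro a b
    rw [Finset.sum_eq_single a, Finset.sum_eq_single b]
    · simp [E]
    · intro j _ hj; simp [E, hj.symm]
    · simp
    · intro i _ hi; simp [E, hi.symm]
    · simp
  simp only [G, prod_update_mat]
  have h1 : ∀ s s' : V → Fin 2, K s s' * (M (s x) (s' x)
      * ∏ y ∈ Finset.univ.erase x, W y (s y) (s' y))
      = ∑ i, ∑ j, K s s' * (E i j (s x) (s' x)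
        * ∏ y ∈ Finset.univ.erase x, W y (s y) (s' y)) * M i j := by
    intro s s'
    rw [hM (s x) (s' x), Finset.sum_mul, Finset.mul_sum]
    refine Finset.sum_congr rfl fun i _ => ?_
    rw [Finset.sum_mul, Finset.mul_sum]
    refine Finset.sum_congr rfl fun j _ => ?_
    ring
  simp only [h1]
  simp only [Fin.sum_univ_two, Finset.sum_add_distrib, Finset.sum_mul]

/-- Identity at a site. -/
def dl : Fin 2 → Fin 2 → ℂ := fun i j => if i = j then 1 else 0

/-- Contraction over a set of sites: every site carries the identity or a rank one matrix. -/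
theorem G_ne_zero_of_sites {g : ℝ} (hg : 0 < Real.cos g)
    {K : Matrix (V → Fin 2) (V → Fin 2) ℂ}
    (hK : ∀ v u : V → Fin 2 → ℂ, (∀ x, Cl g (v x)) → (∀ x, Cl g (u x)) →
      G K (fun x i j => v x i * u x j) ≠ 0) (T : Finset V) :
    ∀ W : V → Fin 2 → Fin 2 → ℂ, (∀ x ∈ T, W x = dl) →
      (∀ x ∉ T, ∃ v u : Fin 2 → ℂ, Cl g v ∧ Cl g u ∧ W x = fun i j => v i * u j) →
      G K W ≠ 0 := by
  induction T using Finset.induction_on with
  | empty =>
    intro W _ h2
    choose v u hv hu hW using fun x => h2 x (Finset.notMem_empty x)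
    have : W = fun x i j => v x i * u x j := by
      funext x; exact hW x
    rw [this]
    exact hK v u hv hu
  | insert x T hx ih =>
    intro W h1 h2
    have hWx : W x = dl := h1 x (Finset.mem_insert_self x T)
    have key := trace_ne_zero hg (fun i j => G K (Function.update W x (E i j))) ?_
    · intro h0
      apply key
      have h3 := G_update K W x dl
      rw [← hWx, Function.update_eq_self, h0] at h3
      rw [h3]
      refine Finset.sum_congr rfl fun i _ => ?_
      rw [Finset.sum_eq_single i]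
      · rw [hWx]; simp [dl]
      · intro j _ hj
        rw [hWx]; simp [dl, hj.symm]
      · simp
    · intro v u hv0 hu0 hv hu
      rw [← G_update K W x (fun i j => v i * u j)]
      refine ih _ ?_ ?_
      · intro y hy
        rw [Function.update_of_ne (by rintro rfl; exact hx hy)]
        exact h1 y (Finset.mem_insert_of_mem hy)
      · intro y hy
        by_cases hyx : y = x
        · subst hyx
          exact ⟨v, u, ⟨hv0, hv⟩, ⟨hu0, hu⟩, by rw [Function.update_self]⟩
        · rw [Function.update_of_ne hyx]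
          exact h2 y (by rw [Finset.mem_insert]; push Not; exact ⟨hyx, hy⟩)

/-- `σ³` at one site. -/
def sg (i : Fin 2) : ℂ := if i = 0 then 1 else -1

/-- Diagonal of `K` weighted by `f` at `z`. -/
noncomputable def trz (K : Matrix (V → Fin 2) (V → Fin 2) ℂ) (z : V) (f : Fin 2 → ℂ) : ℂ :=
  ∑ s, K s s * f (s z)

theorem G_all_dl (K : Matrix (V → Fin 2) (V → Fin 2) ℂ) :
    G K (fun _ => dl) = ∑ s, K s s := by
  simp only [G]
  refine Finset.sum_congr rfl fun s _ => ?_
  rw [Finset.sum_eq_single s]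
  · simp [dl]
  · intro s' _ hs'
    obtain ⟨x, hx⟩ := Function.ne_iff.mp hs'
    rw [Finset.prod_eq_zero (Finset.mem_univ x), mul_zero]
    simp [dl, Ne.symm hx]
  · simp

/-- Configurations have the same number of downs. -/
def Cons (K : Matrix (V → Fin 2) (V → Fin 2) ℂ) : Prop :=
  ∀ s s', K s s' ≠ 0 → ∑ x, ((s x : ℕ)) = ∑ x, ((s' x : ℕ))

theorem cons_one : Cons (V := V) 1 := by
  intro s s' h
  rcases eq_or_ne s s' with rfl | hne
  · rfl
  · exact absurd (Matrix.one_apply_ne hne) h

theorem Cons.mul {K L : Matrix (V → Fin 2) (V → Fin 2) ℂ} (hK : Cons K) (hL : Cons L) :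
    Cons (K * L) := by
  intro s s' h
  rw [Matrix.mul_apply] at h
  obtain ⟨t, _, ht⟩ := Finset.exists_ne_zero_of_sum_ne_zero h
  exact (hK s t (left_ne_zero_of_mul ht)).trans (hL t s' (right_ne_zero_of_mul ht))

theorem cons_slice (b : V → ℂ) : Cons (sliceM b) := by
  intro s s' h
  rcases eq_or_ne s s' with rfl | hne
  · rfl
  · exact absurd (Matrix.diagonal_apply_ne _ hne) h

theorem cons_gate (x y : V) (p : ℝ) : Cons (gateM x y p) := by
  intro s s' h
  simp only [gateM, Matrix.add_apply, Matrix.smul_apply, smul_eq_mul] at h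
  rcases eq_or_ne s s' with rfl | hne
  · rfl
  · rw [Matrix.one_apply_ne hne, mul_zero, zero_add] at h
    have h2 := right_ne_zero_of_mul h
    simp only [swMat, Matrix.of_apply, ne_eq, ite_eq_right_iff, one_ne_zero, imp_false,
      not_not] at h2
    subst h2
    rw [← Equiv.sum_comp (Equiv.swap x y)]
    rfl

theorem G_site_sym {K : Matrix (V → Fin 2) (V → Fin 2) ℂ} (hK : Cons K) (z : V)
    (M : Fin 2 → Fin 2 → ℂ) :
    G K (Function.update (fun _ => dl) z M) = trz K z (fun i => M i i) := by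
  simp only [G, trz]
  refine Finset.sum_congr rfl fun s _ => ?_
  rw [Finset.sum_eq_single s]
  · rw [prod_update_mat]
    simp [dl]
  · intro s' _ hs'
    by_cases hKs : K s s' = 0
    · rw [hKs, zero_mul]
    · by_cases hoff : ∀ y, y ≠ z → s y = s' y
      · exfalso
        apply hs'
        have h1 := hK s s' hKs
        have h2 : ∑ y ∈ Finset.univ.erase z, ((s y : ℕ))
            = ∑ y ∈ Finset.univ.erase z, ((s' y : ℕ)) := by
          refine Finset.sum_congr rfl fun y hy => ?_
          rw [hoff y (Finset.ne_of_mem_erase hy)]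
        rw [← Finset.add_sum_erase Finset.univ _ (Finset.mem_univ z),
          ← Finset.add_sum_erase Finset.univ (fun y => ((s' y : ℕ))) (Finset.mem_univ z), h2]
          at h1
        funext y
        by_cases hy : y = z
        · subst hy
          exact Fin.ext (by simpa using (Nat.add_right_cancel h1).symm)
        · exact (hoff y hy).symm
      · push Not at hoff
        obtain ⟨y, hy, hne⟩ := hoff
        rw [prod_update_mat, Finset.prod_eq_zero (Finset.mem_erase.mpr ⟨hy, Finset.mem_univ y⟩),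
          mul_zero, mul_zero]
        simp [dl, hne]
  · simp

end Vale.Agent.P361.LRO.LY
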